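import Mathlib

/-! Row 120: the group von Neumann algebra via matrix coefficients. -/

set_option autoImplicit false

namespace Crest.Agent.R120

open scoped InnerProductSpace ComplexConjugate
open Filter Topology

variable {Γ : Type} [Group Γ] {H : Type} [NormedAddCommGroup H] [InnerProductSpace ℂ H]
  [CompleteSpace H] (b : HilbertBasis Γ ℂ H)

/-- matrix coefficient -/
noncomputable def co (T : H →L[ℂ] H) (g h : Γ) : ℂ := ⟪b g, T (b h)⟫_ℂ

omit [Group Γ] [CompleteSpace H] in
theorem vec_ext {x y : H} (h : ∀ g, ⟪b g, x⟫_ℂ = ⟪b g, y⟫_ℂ) : x = y := by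
  apply b.repr.injective
  ext g
  rw [b.repr_apply_apply, b.repr_apply_apply, h]

omit [Group Γ] [CompleteSpace H] in
theorem op_ext {S T : H →L[ℂ] H} (h : ∀ g, S (b g) = T (b g)) : S = T := by
  apply ContinuousLinearMap.ext_on (s := Set.range b)
  · rw [Submodule.dense_iff_topologicalClosure_eq_top]; exact b.dense_span
  · rintro _ ⟨g, rfl⟩; exact h g

omit [Group Γ] [CompleteSpace H] in
theorem co_ext {S T : H →L[ℂ] H} (h : ∀ g k, co b S g k = co b T g k) : S = T :=
  op_ext b fun k => vec_ext b fun g => h g k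

omit [Group Γ] in
theorem co_star (T : H →L[ℂ] H) (g h : Γ) : co b (star T) g h = conj (co b T h g) := by
  rw [co, co, ContinuousLinearMap.star_eq_adjoint, ContinuousLinearMap.adjoint_inner_right,
    inner_conj_symm]

omit [Group Γ] in
theorem hasSum_co (S T : H →L[ℂ] H) (g h : Γ) :
    HasSum (fun k => co b S g k * co b T k h) (co b (S * T) g h) := by
  have := b.hasSum_inner_mul_inner (ContinuousLinearMap.adjoint S (b g)) (T (b h))
  simpa only [ContinuousLinearMap.adjoint_inner_left, co, mul_apply_eq_comp] using this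

omit [Group Γ] [CompleteSpace H] in
open Classical in
theorem inner_b (g h : Γ) : ⟪b g, b h⟫_ℂ = if g = h then 1 else 0 :=
  orthonormal_iff_ite.1 b.orthonormal g h

omit [Group Γ] [CompleteSpace H] in
theorem continuous_co (g h : Γ) : Continuous fun T : H →L[ℂ] H => co b T g h := by
  unfold co; fun_prop

/-- operators commuting with the right regular representation, supported in `Λ` -/
def MM (Λ : Subgroup Γ) : StarSubalgebra ℂ (H →L[ℂ] H) where
  carrier := {T | (∀ g h k, co b T (g * k) (h * k) = co b T g h) ∧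
    ∀ g h, g * h⁻¹ ∉ Λ → co b T g h = 0}
  mul_mem' := by
    rintro S T ⟨hS, hS'⟩ ⟨hT, hT'⟩
    refine ⟨fun g h k => ?_, fun g h hgh => ?_⟩
    · refine (hasSum_co b S T _ _).unique ?_
      rw [← (Equiv.mulRight k).hasSum_iff]
      simpa [Function.comp_def, hS, hT] using hasSum_co b S T g h
    · refine (hasSum_co b S T _ _).unique ?_
      convert hasSum_zero using 2 with k
      by_cases h1 : g * k⁻¹ ∈ Λ
      · rw [hT' k h (fun h2 => hgh (by simpa using Λ.mul_mem h1 h2)), mul_zero]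
      · rw [hS' _ _ h1, zero_mul]
  add_mem' := by
    rintro S T ⟨hS, hS'⟩ ⟨hT, hT'⟩
    simp only [co] at *
    exact ⟨fun g h k => by simp [hS, hT],
      fun g h hgh => by simp [hS' g h hgh, hT' g h hgh]⟩
  algebraMap_mem' := by
    intro r
    simp only [co, Algebra.algebraMap_eq_smul_one, Set.mem_ofPred_eq]
    refine ⟨fun g h k => by by_cases hgh : g = h <;> simp [inner_b, hgh, b.orthonormal.1], fun g h hgh => ?_⟩
    have : g ≠ h := by rintro rfl; simp at hgh
    simp [inner_b, this]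
  star_mem' := by
    rintro T ⟨hT, hT'⟩
    refine ⟨fun g h k => by rw [co_star, co_star, hT], fun g h hgh => ?_⟩
    rw [co_star, hT' h g (fun h2 => hgh (by simpa using Λ.inv_mem h2)), map_zero]

theorem MM_mono {Λ Λ' : Subgroup Γ} (h : Λ ≤ Λ') : MM b Λ ≤ MM b Λ' :=
  fun _ hT => ⟨hT.1, fun g k hg => hT.2 g k fun h2 => hg (h h2)⟩

theorem mem_MM_of_tendsto {Λ : Subgroup Γ} {ι : Type*} {l : Filter ι} [l.NeBot]
    {T : ι → H →L[ℂ] H} {S : H →L[ℂ] H} (hT : ∀ i, T i ∈ MM b Λ)
    (h : ∀ x, Tendsto (fun i => T i x) l (𝓝 (S x))) : S ∈ MM b Λ := by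
  have key : ∀ g k, Tendsto (fun i => co b (T i) g k) l (𝓝 (co b S g k)) := fun g k =>
    tendsto_const_nhds.inner (h _)
  refine ⟨fun g h k => tendsto_nhds_unique (key _ _) ?_,
    fun g h hgh => tendsto_nhds_unique (key _ _) ?_⟩
  · simpa only [fun i => (hT i).1 g h k] using key g h
  · simpa only [fun i => (hT i).2 g h hgh] using tendsto_const_nhds

theorem isClosed_MM (Λ : Subgroup Γ) : IsClosed (MM b Λ : Set (H →L[ℂ] H)) := by
  refine isClosed_of_closure_subset fun S hS => ?_
  obtain ⟨T, hT, h⟩ := mem_closure_iff_seq_limit.1 hS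
  exact mem_MM_of_tendsto b hT fun x =>
    ((ContinuousLinearMap.apply ℂ H x).continuous.tendsto S).comp h

/-- the trace -/
noncomputable def tau : (H →L[ℂ] H) →L[ℂ] ℂ :=
  (innerSL ℂ (b 1)).comp (ContinuousLinearMap.apply ℂ H (b 1))

omit [CompleteSpace H] in
theorem tau_apply (T : H →L[ℂ] H) : tau b T = co b T 1 1 := rfl

omit [CompleteSpace H] in
theorem tau_one : tau b 1 = 1 := by simp [tau_apply, co, b.orthonormal.1 1]

theorem tau_star_mul (S T : H →L[ℂ] H) : tau b (star S * T) = ⟪S (b 1), T (b 1)⟫_ℂ := by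
  rw [tau_apply, co, mul_apply_eq_comp, ContinuousLinearMap.star_eq_adjoint,
    ContinuousLinearMap.adjoint_inner_right]

theorem tau_star_mul_self (T : H →L[ℂ] H) : tau b (star T * T) = ((‖T (b 1)‖ ^ 2 : ℝ) : ℂ) := by
  rw [tau_star_mul, inner_self_eq_norm_sq_to_K]; simp

theorem tau_comm {Λ : Subgroup Γ} {S T : H →L[ℂ] H} (hS : S ∈ MM b Λ) (hT : T ∈ MM b Λ) :
    tau b (S * T) = tau b (T * S) := by
  refine (hasSum_co b S T 1 1).unique ?_
  rw [← (Equiv.inv Γ).hasSum_iff, tau_apply]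
  convert hasSum_co b T S 1 1 using 2 with k
  have h1 := hS.1 1 k⁻¹ k
  have h2 := hT.1 k⁻¹ 1 k
  simp only [one_mul, inv_mul_cancel] at h1 h2
  simp [← h1, ← h2, mul_comm]

theorem MM_ext {Λ : Subgroup Γ} {S T : H →L[ℂ] H} (hS : S ∈ MM b Λ) (hT : T ∈ MM b Λ)
    (h : ∀ g ∈ Λ, co b S g 1 = co b T g 1) : S = T := by
  refine co_ext b fun g k => ?_
  by_cases hg : g * k⁻¹ ∈ Λ
  · rw [← hS.1 g k k⁻¹, ← hT.1 g k k⁻¹, mul_inv_cancel, h _ hg]
  · rw [hS.2 _ _ hg, hT.2 _ _ hg]

theorem tau_faithful {Λ : Subgroup Γ} {T : H →L[ℂ] H} (hT : T ∈ MM b Λ)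
    (h : tau b (star T * T) = 0) : T = 0 := by
  rw [tau_star_mul, inner_self_eq_zero] at h
  exact MM_ext b hT (zero_mem _) fun g _ => by simp [co, h]

theorem norm_apply_b {Λ : Subgroup Γ} {T : H →L[ℂ] H} (hT : T ∈ MM b Λ) (g : Γ) :
    ‖T (b g)‖ = ‖T (b 1)‖ := by
  have h1 := (mul_mem (star_mem hT) hT).1 1 1 g
  simp only [co, one_mul, mul_apply_eq_comp, ContinuousLinearMap.star_eq_adjoint,
    ContinuousLinearMap.adjoint_inner_right, inner_self_eq_norm_sq_to_K] at h1
  have h2 : ‖T (b g)‖ ^ 2 = ‖T (b 1)‖ ^ 2 := by exact_mod_cast h1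
  exact (pow_left_inj₀ (norm_nonneg _) (norm_nonneg _) two_ne_zero).1 h2

omit [Group Γ] [CompleteSpace H] in
theorem tendsto_zero_of_basis {T : ℕ → H →L[ℂ] H} (hT : ∀ n, ‖T n‖ ≤ 1)
    (h : ∀ g, Tendsto (fun n => T n (b g)) atTop (𝓝 0)) (x : H) :
    Tendsto (fun n => T n x) atTop (𝓝 0) := by
  have h1 : ∀ y ∈ Submodule.span ℂ (Set.range b), Tendsto (fun n => T n y) atTop (𝓝 0) := by
    intro y hy
    induction hy using Submodule.span_induction with
    | mem y hy => obtain ⟨g, rfl⟩ := hy; exact h g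
    | zero => simp
    | add y z _ _ hy hz => simpa using hy.add hz
    | smul c y _ hy => simpa using hy.const_smul c
  have hx : x ∈ closure (Submodule.span ℂ (Set.range b) : Set H) := by
    rw [← Submodule.topologicalClosure_coe, b.dense_span]; trivial
  rw [Metric.tendsto_atTop]
  intro ε hε
  obtain ⟨y, hy, hxy⟩ := Metric.mem_closure_iff.1 hx (ε / 2) (by positivity)
  obtain ⟨N, hN⟩ := Metric.tendsto_atTop.1 (h1 y hy) (ε / 2) (by positivity)
  refine ⟨N, fun n hn => ?_⟩
  have h2 := hN n hn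
  rw [dist_zero_right] at h2 ⊢
  rw [dist_eq_norm] at hxy
  have h3 := (T n).le_of_opNorm_le (hT n) (x - y)
  have h4 : T n x = T n (x - y) + T n y := by simp
  rw [h4]
  have := norm_add_le (T n (x - y)) (T n y)
  linarith

/-- left regular representation -/
noncomputable def lam (g : Γ) : H →L[ℂ] H :=
  (b.repr.trans (HilbertBasis.mk (v := fun h => b (g * h))
    (b.orthonormal.comp _ (mul_right_injective g)) (by
      have : Set.range (fun h => b (g * h)) = Set.range b :=
        (Equiv.mulLeft g).surjective.range_comp b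
      rw [this, b.dense_span])).repr.symm).toLinearIsometry.toContinuousLinearMap

theorem lam_b (g h : Γ) : lam b g (b h) = b (g * h) := by
  classical
  simp only [lam, LinearIsometry.coe_toContinuousLinearMap,
    LinearIsometryEquiv.coe_toLinearIsometry, LinearIsometryEquiv.trans_apply, b.repr_self,
    HilbertBasis.repr_symm_single, HilbertBasis.coe_mk]

theorem lam_mul (g h : Γ) : lam b (g * h) = lam b g * lam b h :=
  op_ext b fun k => by simp [lam_b, mul_assoc]

theorem lam_one : lam b 1 = 1 := op_ext b fun k => by simp [lam_b]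

theorem star_lam (g : Γ) : star (lam b g) = lam b g⁻¹ := by
  classical
  refine co_ext b fun h k => ?_
  rw [co_star, co, co, lam_b, lam_b, inner_conj_symm, inner_b, inner_b]
  simp [eq_inv_mul_iff_mul_eq]

theorem lam_mem {Λ : Subgroup Γ} {g : Γ} (hg : g ∈ Λ) : lam b g ∈ MM b Λ := by
  classical
  refine ⟨fun x y k => ?_, fun x y hxy => ?_⟩
  · simp [co, lam_b, inner_b, ← mul_assoc]
  · have : x ≠ g * y := by rintro rfl; simp [hg] at hxy
    simp [co, lam_b, inner_b, this]

theorem tau_mul_lam {Λ : Subgroup Γ} {T : H →L[ℂ] H} (hT : T ∈ MM b Λ) {g : Γ} (hg : g ∉ Λ) :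
    tau b (T * lam b g) = 0 := by
  rw [tau_apply, co, mul_apply_eq_comp, lam_b, mul_one]
  exact hT.2 1 g (by simpa using hg)

/-- projection onto the span of a set of basis vectors -/
noncomputable def QQ (Ω : Set Γ) : H →L[ℂ] H :=
  (Submodule.span ℂ (b '' Ω)).topologicalClosure.starProjection

omit [Group Γ] in
theorem QQ_proj (Ω : Set Γ) : IsStarProjection (QQ b Ω) := isStarProjection_starProjection

omit [Group Γ] in
theorem QQ_mem {Ω : Set Γ} {g : Γ} (hg : g ∈ Ω) : QQ b Ω (b g) = b g :=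
  Submodule.starProjection_eq_self_iff.2
    (Submodule.le_topologicalClosure _ (Submodule.subset_span ⟨g, hg, rfl⟩))

omit [Group Γ] in
theorem QQ_notMem {Ω : Set Γ} {g : Γ} (hg : g ∉ Ω) : QQ b Ω (b g) = 0 := by
  classical
  rw [QQ, Submodule.starProjection_apply_eq_zero_iff, Submodule.orthogonal_closure,
    Submodule.mem_orthogonal]
  intro u hu
  induction hu using Submodule.span_induction with
  | mem y hy =>
    obtain ⟨k, hk, rfl⟩ := hy
    have : k ≠ g := by rintro rfl; exact hg hk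
    simp [inner_b, this]
  | zero => simp
  | add y z _ _ hy hz => simp [inner_add_left, hy, hz]
  | smul c y _ hy => simp [inner_smul_left, hy]

omit [Group Γ] in
theorem inner_QQ (Ω : Set Γ) (x y : H) : ⟪x, QQ b Ω y⟫_ℂ = ⟪QQ b Ω x, y⟫_ℂ :=
  (Submodule.inner_starProjection_left_eq_right _ x y).symm

theorem QQ_mul_QQ {Ω : Set Γ} {Λ : Subgroup Γ} (hΩ : ∀ h ∈ Λ, ∀ w ∈ Ω, h * w ∈ Ω → h = 1)
    {T : H →L[ℂ] H} (hT : T ∈ MM b Λ) : QQ b Ω * T * QQ b Ω = tau b T • QQ b Ω := by
  classical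
  refine co_ext b fun g h => ?_
  simp only [co, mul_apply_eq_comp, smul_apply, inner_smul_right]
  by_cases hh : h ∈ Ω
  · rw [QQ_mem b hh, inner_QQ]
    by_cases hg : g ∈ Ω
    · rw [QQ_mem b hg, inner_b]
      split_ifs with hgh
      · subst hgh
        have := hT.1 1 1 g
        simpa [co, tau_apply] using this
      · rw [mul_zero]
        refine hT.2 g h fun h2 => hgh ?_
        have := hΩ _ h2 h hh (by simpa using hg)
        exact mul_inv_eq_one.1 this
    · have : g ≠ h := by rintro rfl; exact hg hh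
      simp [QQ_notMem b hg, inner_b, this]
  · simp [QQ_notMem b hh]

theorem QQ_lam {Ω : Set Γ} {g : Γ} (hg : ∀ w ∉ Ω, g * w ∈ Ω) :
    (1 - QQ b Ω) * lam b g * (1 - QQ b Ω) = 0 := by
  refine op_ext b fun h => ?_
  by_cases hh : h ∈ Ω
  · simp [QQ_mem b hh]
  · simp [QQ_notMem b hh, lam_b, QQ_mem b (hg h hh)]

end Crest.Agent.R120
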