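import Mathlib

/-! Row 120: the ultrapower representation and limits of decreasing projections. -/

set_option autoImplicit false

namespace Crest.Agent.R120

open scoped InnerProductSpace ComplexConjugate BoundedContinuousFunction ComplexOrder
open Filter Topology

theorem tendsto_ulim {f : ℕ → ℂ} {C : ℝ} (h : ∀ n, ‖f n‖ ≤ C) :
    Tendsto f (hyperfilter ℕ) (𝓝 (limUnder (hyperfilter ℕ) f)) := by
  apply tendsto_nhds_limUnder
  obtain ⟨z, -, hz⟩ := (isCompact_closedBall (0 : ℂ) C).ultrafilter_le_nhds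
    ((hyperfilter ℕ).map f) (by
      rw [le_principal_iff]
      exact mem_map.2 (Eventually.of_forall fun n => by simpa using h n))
  exact ⟨z, hz⟩

variable {H : Type} [NormedAddCommGroup H] [InnerProductSpace ℂ H] [CompleteSpace H]

theorem exists_sat (ξ₀ : H) (h₀ : ‖ξ₀‖ = 1) :
    ∃ (K : Type) (_ : NormedAddCommGroup K) (_ : InnerProductSpace ℂ K) (_ : CompleteSpace K)
      (ρ : (H →L[ℂ] H) →⋆ₐ[ℂ] (K →L[ℂ] K)), ∀ ξ : ℕ → H, (∀ n, ‖ξ n‖ ≤ 1) →
      ∃ ζ : K, ∀ x : H →L[ℂ] H,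
        Tendsto (fun n => ‖x (ξ n)‖) (hyperfilter ℕ) (𝓝 ‖ρ x ζ‖) := by
  let D := ℕ →ᵇ (H →L[ℂ] H)
  let : PartialOrder D := CStarAlgebra.spectralOrder D
  have : StarOrderedRing D := CStarAlgebra.spectralOrderedRing D
  have hb : ∀ T : D, Tendsto (fun n => ⟪ξ₀, T n ξ₀⟫_ℂ) (hyperfilter ℕ)
      (𝓝 (limUnder (hyperfilter ℕ) fun n => ⟪ξ₀, T n ξ₀⟫_ℂ)) := fun T =>
    tendsto_ulim (C := ‖T‖) fun n => by
      have h1 := norm_inner_le_norm (𝕜 := ℂ) ξ₀ (T n ξ₀)
      have h2 := (T n).le_of_opNorm_le (T.norm_coe_le_norm n) ξ₀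
      rw [h₀] at h1 h2
      linarith
  let Φ₀ : D →ₗ[ℂ] ℂ :=
    { toFun := fun T => limUnder (hyperfilter ℕ) fun n => ⟪ξ₀, T n ξ₀⟫_ℂ
      map_add' := fun S T => tendsto_nhds_unique (hb _) (by
        simpa [D, inner_add_right] using (hb S).add (hb T))
      map_smul' := fun c T => tendsto_nhds_unique (hb _) (by
        simpa [D, inner_smul_right] using (hb T).const_mul c) }
  have hΦ : ∀ T : D, Tendsto (fun n => ((‖T n ξ₀‖ ^ 2 : ℝ) : ℂ)) (hyperfilter ℕ)
      (𝓝 (Φ₀ (star T * T))) := fun T => by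
    refine (hb (star T * T)).congr fun n => ?_
    change ⟪ξ₀, (star (T n) * T n) ξ₀⟫_ℂ = _
    rw [mul_apply_eq_comp, ContinuousLinearMap.star_eq_adjoint,
      ContinuousLinearMap.adjoint_inner_right, inner_self_eq_norm_sq_to_K]
    simp
  let Φ : D →ₚ[ℂ] ℂ := PositiveLinearMap.mk₀ Φ₀ fun x hx => by
    obtain ⟨T, rfl⟩ := CStarAlgebra.nonneg_iff_eq_star_mul_self.1 hx
    exact ge_of_tendsto' (hΦ T) fun n => Complex.zero_le_real.2 (sq_nonneg _)
  let c : (H →L[ℂ] H) →⋆ₐ[ℂ] D :=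
    { toFun := fun x => BoundedContinuousFunction.const ℕ x
      map_one' := rfl
      map_mul' := fun _ _ => rfl
      map_zero' := rfl
      map_add' := fun _ _ => rfl
      commutes' := fun _ => rfl
      map_star' := fun _ => rfl }
  refine ⟨Φ.GNS, inferInstance, inferInstance, inferInstance, Φ.gnsStarAlgHom.comp c,
    fun ξ hξ => ?_⟩
  let T : D := BoundedContinuousFunction.ofNormedAddCommGroupDiscrete
    (fun n => InnerProductSpace.rankOne ℂ (ξ n) ξ₀) 1 fun n => by simpa [h₀] using hξ n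
  refine ⟨(Φ.toPreGNS T : Φ.PreGNS), fun x => ?_⟩
  have h1 : (Φ.gnsStarAlgHom.comp c) x (Φ.toPreGNS T : Φ.PreGNS) =
      (Φ.toPreGNS (c x * T) : Φ.PreGNS) := by
    change Φ.gnsNonUnitalStarAlgHom (c x) _ = _
    rw [PositiveLinearMap.gnsNonUnitalStarAlgHom_apply_coe]
    rfl
  rw [h1, UniformSpace.Completion.norm_coe, PositiveLinearMap.preGNS_norm_def]
  have h2 := (Real.continuous_sqrt.tendsto _).comp
    ((Complex.continuous_re.tendsto _).comp (hΦ (c x * T)))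
  refine h2.congr fun n => ?_
  have h3 : (c x * T) n ξ₀ = x (ξ n) := by
    change x (InnerProductSpace.rankOne ℂ (ξ n) ξ₀ ξ₀) = _
    simp [h₀]
  simp only [Function.comp_apply, h3, Complex.ofReal_re, Real.sqrt_sq (norm_nonneg _)]

/-- decreasing sequence of projections -/
structure Dec {B : Type*} [Mul B] [Star B] (p : ℕ → B) : Prop where
  proj : ∀ n, IsStarProjection (p n)
  le : ∀ n m, n ≤ m → p n * p m = p m

theorem Dec.le' {B : Type*} [Mul B] [StarMul B] {p : ℕ → B} (hp : Dec p) {n m : ℕ} (h : n ≤ m) :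
    p m * p n = p m := by
  have := congrArg star (hp.le n m h)
  rwa [star_mul, (hp.proj n).isSelfAdjoint.star_eq, (hp.proj m).isSelfAdjoint.star_eq] at this

theorem Dec.map {B C F : Type*} [Mul B] [Star B] [Mul C] [Star C] [FunLike F B C]
    [MulHomClass F B C] [StarHomClass F B C] (f : F) {p : ℕ → B} (hp : Dec p) :
    Dec fun n => f (p n) :=
  ⟨fun n => ⟨by rw [IsIdempotentElem, ← map_mul, (hp.proj n).isIdempotentElem.eq],
    by rw [IsSelfAdjoint, ← map_star, (hp.proj n).isSelfAdjoint.star_eq]⟩,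
    fun n m h => by rw [← map_mul, hp.le n m h]⟩

theorem proj_inner {p : H →L[ℂ] H} (hp : IsStarProjection p) (x y : H) :
    ⟪p x, y⟫_ℂ = ⟪x, p y⟫_ℂ := by
  rw [← ContinuousLinearMap.adjoint_inner_right, ← ContinuousLinearMap.star_eq_adjoint,
    hp.isSelfAdjoint.star_eq]

theorem proj_norm_sub_sq {p : H →L[ℂ] H} (hp : IsStarProjection p) (x : H) :
    ‖x - p x‖ ^ 2 = ‖x‖ ^ 2 - ‖p x‖ ^ 2 := by
  have h1 : ⟪x, p x⟫_ℂ = ⟪p x, p x⟫_ℂ := by
    rw [proj_inner hp, ← mul_apply_eq_comp, hp.isIdempotentElem.eq]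
  rw [@norm_sub_sq ℂ, h1, inner_self_eq_norm_sq]; ring

theorem proj_norm_le {p : H →L[ℂ] H} (hp : IsStarProjection p) (x : H) : ‖p x‖ ≤ ‖x‖ := by
  simpa using p.le_of_opNorm_le hp.norm_le x

theorem exists_slim {T : ℕ → H →L[ℂ] H} {C : ℝ} (hT : ∀ n, ‖T n‖ ≤ C)
    (h : ∀ x, CauchySeq fun n => T n x) :
    ∃ S : H →L[ℂ] H, ∀ x, Tendsto (fun n => T n x) atTop (𝓝 (S x)) := by
  choose f hf using fun x => cauchySeq_tendsto_of_complete (h x)
  exact ⟨ContinuousLinearMap.ofTendstoOfBoundedRange f T (tendsto_pi_nhds.2 hf)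
    (isBounded_iff_forall_norm_le.2 ⟨C, by rintro _ ⟨n, rfl⟩; exact hT n⟩), hf⟩

theorem Dec.exists_lim {p : ℕ → H →L[ℂ] H} (hp : Dec p) :
    ∃ S : H →L[ℂ] H, ∀ x, Tendsto (fun n => p n x) atTop (𝓝 (S x)) := by
  refine exists_slim (fun n => (hp.proj n).norm_le) fun x => ?_
  have hsub : ∀ n m, n ≤ m → ‖p n x - p m x‖ ^ 2 = ‖p n x‖ ^ 2 - ‖p m x‖ ^ 2 := fun n m h => by
    have := proj_norm_sub_sq (hp.proj m) (p n x)
    rwa [← mul_apply_eq_comp, hp.le' h] at this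
  have hanti : Antitone fun n => ‖p n x‖ ^ 2 := fun n m h => by
    have := hsub n m h
    have := sq_nonneg ‖p n x - p m x‖
    simp only; linarith
  have hb : BddBelow (Set.range fun n => ‖p n x‖ ^ 2) := ⟨0, by rintro _ ⟨n, rfl⟩; positivity⟩
  have hl := tendsto_atTop_ciInf hanti hb
  rw [Metric.cauchySeq_iff']
  intro ε hε
  obtain ⟨N, hN⟩ := (Metric.cauchySeq_iff'.1 hl.cauchySeq) (ε ^ 2) (by positivity)
  refine ⟨N, fun n hn => ?_⟩
  have h1 := hN n hn
  rw [dist_comm, dist_eq_norm]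
  rw [Real.dist_eq, abs_sub_comm] at h1
  refine lt_of_pow_lt_pow_left₀ 2 hε.le ?_
  rw [hsub N n hn]
  exact (le_abs_self _).trans_lt h1

open Classical in
/-- strong limit of a decreasing sequence of projections -/
noncomputable def plim (p : ℕ → H →L[ℂ] H) : H →L[ℂ] H :=
  if h : Dec p then h.exists_lim.choose else 0

theorem Dec.tendsto {p : ℕ → H →L[ℂ] H} (hp : Dec p) (x : H) :
    Tendsto (fun n => p n x) atTop (𝓝 (plim p x)) := by
  rw [plim, dif_pos hp]; exact hp.exists_lim.choose_spec x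

theorem Dec.mul_plim {p : ℕ → H →L[ℂ] H} (hp : Dec p) (n : ℕ) : p n * plim p = plim p := by
  ext x
  refine tendsto_nhds_unique (((p n).continuous.tendsto _).comp (hp.tendsto x))
    ((hp.tendsto x).congr' ?_)
  filter_upwards [eventually_ge_atTop n] with m hm
  rw [Function.comp_apply, ← mul_apply_eq_comp, hp.le n m hm]

theorem Dec.plim_proj {p : ℕ → H →L[ℂ] H} (hp : Dec p) : IsStarProjection (plim p) := by
  constructor
  · ext x
    refine tendsto_nhds_unique (hp.tendsto (plim p x)) ?_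
    simp only [← mul_apply_eq_comp, hp.mul_plim]
    exact tendsto_const_nhds
  · rw [IsSelfAdjoint, ContinuousLinearMap.star_eq_adjoint, eq_comm,
      ContinuousLinearMap.eq_adjoint_iff]
    intro x y
    refine tendsto_nhds_unique ((hp.tendsto x).inner tendsto_const_nhds) ?_
    simp only [proj_inner (hp.proj _)]
    exact tendsto_const_nhds.inner (hp.tendsto y)

theorem Dec.plim_mul {p : ℕ → H →L[ℂ] H} (hp : Dec p) (n : ℕ) : plim p * p n = plim p := by
  have := congrArg star (hp.mul_plim n)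
  rwa [star_mul, (hp.proj n).isSelfAdjoint.star_eq, hp.plim_proj.isSelfAdjoint.star_eq] at this

theorem Dec.plim_eq_self {p : ℕ → H →L[ℂ] H} (hp : Dec p) {x : H} (h : ∀ n, p n x = x) :
    plim p x = x :=
  tendsto_nhds_unique (hp.tendsto x) (by simpa only [h] using tendsto_const_nhds)

variable {K : Type} [NormedAddCommGroup K] [InnerProductSpace ℂ K] [CompleteSpace K]

/-- limit projection in the representation `ρ` -/
noncomputable def hat (ρ : (H →L[ℂ] H) →⋆ₐ[ℂ] (K →L[ℂ] K)) (p : ℕ → H →L[ℂ] H) : K →L[ℂ] K :=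
  plim fun n => ρ (p n)

/-- saturation property -/
def Sat (ρ : (H →L[ℂ] H) →⋆ₐ[ℂ] (K →L[ℂ] K)) : Prop :=
  ∀ p : ℕ → H →L[ℂ] H, Dec p → ∀ x, hat ρ p * ρ x * hat ρ p = 0 →
    Tendsto (fun n => ‖p n * x * p n‖) atTop (𝓝 0)

theorem sat_of {ρ : (H →L[ℂ] H) →⋆ₐ[ℂ] (K →L[ℂ] K)} (h : ∀ ξ : ℕ → H, (∀ n, ‖ξ n‖ ≤ 1) →
      ∃ ζ : K, ∀ x : H →L[ℂ] H,
        Tendsto (fun n => ‖x (ξ n)‖) (hyperfilter ℕ) (𝓝 ‖ρ x ζ‖)) : Sat ρ := by
  intro p hp x hx
  have hanti : ∀ n m, n ≤ m → ‖p m * x * p m‖ ≤ ‖p n * x * p n‖ := fun n m hnm => by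
    have : p m * x * p m = p m * (p n * x * p n) * p m := by
      simp only [← mul_assoc, hp.le' hnm]
      simp only [mul_assoc, hp.le n m hnm]
    rw [this]
    calc _ ≤ ‖p m‖ * ‖p n * x * p n‖ * ‖p m‖ := norm_mul₃_le
      _ ≤ 1 * ‖p n * x * p n‖ * 1 := by
        gcongr <;> exact (hp.proj m).norm_le
      _ = _ := by ring
  rw [Metric.tendsto_atTop]
  intro ε hε
  by_contra hcon
  push Not at hcon
  have h1 : ∀ n, ∃ ξ : H, ‖ξ‖ ≤ 1 ∧ ε / 2 < ‖(p n * x * p n) ξ‖ := fun n => by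
    obtain ⟨m, hm, hm'⟩ := hcon n
    rw [dist_zero_right, norm_norm] at hm'
    obtain ⟨ξ, h1, h2⟩ := (p n * x * p n).exists_lt_apply_of_lt_opNorm (r := ε / 2)
      (by linarith [hanti n m hm])
    exact ⟨ξ, h1.le, h2⟩
  choose ξ hξ hξ' using h1
  obtain ⟨ζ, hζ⟩ := h (fun n => p n (ξ n)) fun n => (proj_norm_le (hp.proj n) _).trans (hξ n)
  have hev : ∀ k, ∀ᶠ n in (hyperfilter ℕ : Filter ℕ), k ≤ n := fun k =>
    (eventually_ge_atTop k).filter_mono (by rw [← Nat.cofinite_eq_atTop]; exact hyperfilter_le_cofinite)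
  have h2 : ∀ k, ρ (p k) ζ = ζ := fun k => by
    have h3 : ‖ρ (1 - p k) ζ‖ = 0 := by
      refine tendsto_nhds_unique (hζ _) (tendsto_const_nhds.congr' ?_)
      filter_upwards [hev k] with n hn
      rw [← mul_apply_eq_comp, sub_mul, hp.le k n hn]; simp
    rw [norm_eq_zero, map_sub, map_one] at h3
    exact (sub_eq_zero.1 h3).symm
  have h4 : hat ρ p ζ = ζ := (hp.map ρ).plim_eq_self h2
  have h5 : ∀ k, ε / 2 ≤ ‖ρ (p k) (ρ x ζ)‖ := fun k => by
    rw [← mul_apply_eq_comp, ← map_mul]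
    refine ge_of_tendsto (hζ _) ?_
    filter_upwards [hev k] with n hn
    refine (hξ' n).le.trans ?_
    have := proj_norm_le (hp.proj n) ((p k * x) (p n (ξ n)))
    simpa only [← mul_apply_eq_comp, ← mul_assoc, hp.le' hn] using this
  have h6 := ge_of_tendsto' ((hp.map ρ).tendsto (ρ x ζ)).norm h5
  have h7 : hat ρ p (ρ x ζ) = 0 := by
    have := DFunLike.congr_fun hx ζ
    simpa only [mul_apply_eq_comp, h4, zero_apply] using this
  rw [← hat, h7, norm_zero] at h6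
  linarith

end Crest.Agent.R120
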