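import Crest.Agent.R120.Move
import Crest.Agent.R120.Sat

/-! Row 120: the back-and-forth construction of two peak sequences. -/

set_option autoImplicit false

namespace Crest.Agent.R120

open Crest.OpAlg Filter Topology

theorem exists_chain {X Y : Type} (x₀ : X) (R : ℕ → X → Y → X → Prop)
    (h : ∀ n x y, ∃ x', R n x y x') (d : X → ℕ → Y) :
    ∃ (σ : ℕ → X) (y : ℕ → Y), (∀ n, R n (σ n) (y n) (σ (n + 1))) ∧
      ∀ k j N, ∃ n, N ≤ n ∧ y n = d (σ k) j := by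
  choose nx hnx using h
  let f : ℕ → ℕ → X := fun n => Nat.rec (fun _ => x₀) (fun n g => Function.update g (n + 1)
    (nx n (g n) (d (g (Nat.unpair n).1) (Nat.unpair (Nat.unpair n).2).1))) n
  have hf : ∀ n, f (n + 1) = Function.update (f n) (n + 1)
    (nx n (f n n) (d (f n (Nat.unpair n).1) (Nat.unpair (Nat.unpair n).2).1)) := fun _ => rfl
  have h1 : ∀ n k, k ≤ n → f n k = f k k := by
    intro n k hk
    induction n, hk using Nat.le_induction with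
    | base => rfl
    | succ n hk ih => rw [hf, Function.update_of_ne (by omega), ih]
  refine ⟨fun n => f n n,
    fun n => d (f (Nat.unpair n).1 (Nat.unpair n).1) (Nat.unpair (Nat.unpair n).2).1, fun n => ?_,
    fun k j N => ⟨Nat.pair k (Nat.pair j N),
      (Nat.right_le_pair j N).trans (Nat.right_le_pair _ _), by simp⟩⟩
  beta_reduce
  rw [hf, Function.update_self, h1 n _ (Nat.unpair_left_le n)]
  exact hnx _ _ _

variable {A : Type} [CStarAlgebra A] {τ : A →ₗ[ℂ] ℂ}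
variable {H₁ : Type} [NormedAddCommGroup H₁] [InnerProductSpace ℂ H₁] [CompleteSpace H₁]
variable {H₂ : Type} [NormedAddCommGroup H₂] [InnerProductSpace ℂ H₂] [CompleteSpace H₂]

/-- a state of the back-and-forth construction -/
structure St (π₁ : A →⋆ₙₐ[ℂ] (H₁ →L[ℂ] H₁)) (π₂ : A →⋆ₙₐ[ℂ] (H₂ →L[ℂ] H₂)) where
  P : A
  P' : A
  a : A
  ξ : H₁
  ξ' : H₂
  hP : IsStarProjection P
  hP' : IsStarProjection P'
  ha : star a * a = 1 - P
  ha' : a * star a = 1 - P'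
  n : ‖ξ‖ = 1
  n' : ‖ξ'‖ = 1
  f : π₁ P ξ = ξ
  f' : π₂ P' ξ' = ξ'

variable {π₁ : A →⋆ₙₐ[ℂ] (H₁ →L[ℂ] H₁)} {π₂ : A →⋆ₙₐ[ℂ] (H₂ →L[ℂ] H₂)}

/-- swapping the two sides -/
def St.swap (σ : St π₁ π₂) : St π₂ π₁ :=
  ⟨σ.P', σ.P, star σ.a, σ.ξ', σ.ξ, σ.hP', σ.hP, by rw [star_star, σ.ha'], by rw [star_star, σ.ha],
    σ.n', σ.n, σ.f', σ.f⟩

/-- extension of states -/
structure Ext (σ σ' : St π₁ π₂) (ε : ℝ) : Prop where
  p : σ.P * σ'.P = σ'.P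
  p' : σ.P' * σ'.P' = σ'.P'
  a : σ'.a * (1 - σ.P) = σ.a
  a' : star σ'.a * (1 - σ.P') = star σ.a
  v : ‖σ'.ξ - σ.ξ‖ ≤ ε
  v' : ‖σ'.ξ' - σ.ξ'‖ ≤ ε

theorem Ext.swap {σ σ' : St π₁ π₂} {ε : ℝ} (h : Ext σ σ' ε) : Ext σ.swap σ'.swap ε :=
  ⟨h.p', h.p, h.a', by simpa [St.swap] using h.a, h.v', h.v⟩

theorem one_sub_mul_one_sub {p q : A} (hp : IsStarProjection p) (hq : IsStarProjection q)
    (h : p * q = q) : (1 - q) * (1 - p) = 1 - p := by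
  have hqp : q * p = q := by
    simpa [hp.isSelfAdjoint.star_eq, hq.isSelfAdjoint.star_eq] using congrArg star h
  simp [mul_sub, sub_mul, hqp]

theorem Ext.trans {σ σ' σ'' : St π₁ π₂} {ε ε' : ℝ} (h : Ext σ σ' ε) (h' : Ext σ' σ'' ε') :
    Ext σ σ'' (ε + ε') := by
  refine ⟨by rw [← h'.p, ← mul_assoc, h.p], by rw [← h'.p', ← mul_assoc, h.p'], ?_, ?_, ?_, ?_⟩
  · rw [← one_sub_mul_one_sub σ.hP σ'.hP h.p, ← mul_assoc, h'.a, h.a]
  · rw [← one_sub_mul_one_sub σ.hP' σ'.hP' h.p', ← mul_assoc, h'.a', h.a']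
  · linarith [norm_sub_le_norm_sub_add_norm_sub σ''.ξ σ'.ξ σ.ξ, h.v, h'.v]
  · linarith [norm_sub_le_norm_sub_add_norm_sub σ''.ξ' σ'.ξ' σ.ξ', h.v', h'.v']

theorem St.tr (h : Rich τ) (σ : St π₁ π₂) : τ σ.P' = τ σ.P := by
  have := h.comm (star σ.a) σ.a
  rw [σ.ha, σ.ha', map_sub, map_sub] at this
  linear_combination this

theorem half (h : Rich τ) (h₁ : IsIrreducibleRep π₁) (h₂ : IsIrreducibleRep π₂) (σ : St π₁ π₂)
    (x : A) {ε : ℝ} (hε : 0 < ε) : ∃ σ', Ext σ σ' ε ∧ (τ σ'.P).re ≤ ε ∧ Exc σ'.P x ε := by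
  obtain ⟨p, η, hp, hPp, hτ, hη, hpη, hηξ, hx⟩ := excise h h₁ σ.hP σ.n σ.f x hε
  have hp0 := h.proj_pos hp (by rintro rfl; simp at hpη; simp [← hpη] at hη)
  obtain ⟨p', η', hp', hPp', hτ', hη', hpη', hηξ', -⟩ := excise h h₂ σ.hP' σ.n' σ.f' x
    (ε := min ε ((τ p).re / 2)) (by positivity)
  have q1 := hp.sub_of_mul_eq_right σ.hP hPp
  have q2 := hp'.sub_of_mul_eq_right σ.hP' hPp'
  obtain ⟨w, hw, hw'⟩ := h.compare q1 q2 (by
    rw [map_sub, map_sub, σ.tr h, Complex.sub_re, Complex.sub_re]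
    linarith [hτ'.trans (min_le_right _ _)])
  have hpP : p * σ.P = p := by
    simpa [hp.isSelfAdjoint.star_eq, σ.hP.isSelfAdjoint.star_eq] using congrArg star hPp
  have hpP' : p' * σ.P' = p' := by
    simpa [hp'.isSelfAdjoint.star_eq, σ.hP'.isSelfAdjoint.star_eq] using congrArg star hPp'
  have w1 : σ.P' * w = w := by
    rw [← hw', ← mul_assoc, mul_sub, σ.hP'.isIdempotentElem.eq, hPp']
  have w2 : p' * w = 0 := by
    rw [← hw', ← mul_assoc, mul_sub, hp'.isIdempotentElem.eq, hpP']; simp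
  have w3 : w * σ.P = w := by
    rw [← pi_right q1 hw, mul_assoc, sub_mul, σ.hP.isIdempotentElem.eq, hpP]
  have a1 : σ.a * (1 - σ.P) = σ.a := pi_right σ.hP.one_sub σ.ha
  have a2 : star σ.a * (1 - σ.P') = star σ.a :=
    pi_right σ.hP'.one_sub (by rw [star_star, σ.ha'])
  have c1 : star σ.a * w = 0 := by rw [← a2, mul_assoc, sub_mul, w1]; simp
  have c2 : σ.a * star w = 0 := by
    have : σ.P * star w = star w := by
      simpa [σ.hP.isSelfAdjoint.star_eq] using congrArg star w3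
    rw [← a1, mul_assoc, sub_mul, this]; simp
  have c3 : star w * σ.a = 0 := by simpa using congrArg star c1
  have c4 : w * star σ.a = 0 := by simpa using congrArg star c2
  have w4 : star w * p' = 0 := by simpa [hp'.isSelfAdjoint.star_eq] using congrArg star w2
  have w5 : star w * σ.P' = star w := by
    simpa [σ.hP'.isSelfAdjoint.star_eq] using congrArg star w1
  refine ⟨⟨p, σ.P' - w * star w, σ.a + w, η, η', hp, sub_pi_proj σ.hP' q1 hw w1, ?_, ?_, hη, hη',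
    hpη, ?_⟩, ⟨hPp, ?_, ?_, ?_, hηξ, hηξ'.trans (min_le_left _ _)⟩, hτ, hx⟩
  · simp [add_mul, mul_add, c1, c3, σ.ha, hw]
  · simp only [star_add, add_mul, mul_add, c2, c4, σ.ha']; abel
  · rw [← hpη', ← mul_apply_eq_comp, ← map_mul, sub_mul, hPp', mul_assoc, w4]; simp
  · simp only [mul_sub, σ.hP'.isIdempotentElem.eq, ← mul_assoc, w1]
  · simp only [add_mul, a1]; simp [mul_sub, w3]
  · simp only [star_add, add_mul, a2]; simp [mul_sub, w5]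

theorem full (h : Rich τ) (h₁ : IsIrreducibleRep π₁) (h₂ : IsIrreducibleRep π₂) (σ : St π₁ π₂)
    (x : A) {ε : ℝ} (hε : 0 < ε) :
    ∃ σ', Ext σ σ' ε ∧ (τ σ'.P).re ≤ ε ∧ Exc σ'.P x ε ∧ Exc σ'.P' x ε := by
  obtain ⟨σ', e1, -, hx⟩ := half h h₁ h₂ σ x (half_pos hε)
  obtain ⟨σ'', e2, ht, hx'⟩ := half h h₂ h₁ σ'.swap x (half_pos hε)
  have e3 : Ext σ' σ''.swap (ε / 2) := by
    have := e2.swap
    exact ⟨this.p, this.p', by simpa [St.swap] using this.a, by simpa [St.swap] using this.a',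
      this.v, this.v'⟩
  refine ⟨σ''.swap, by simpa using e1.trans e3, ?_, hx.mono σ'.hP σ''.hP' e3.p (by linarith),
    hx'.mono σ''.hP σ''.hP σ''.hP.isIdempotentElem.eq (by linarith)⟩
  change (τ σ''.P').re ≤ ε
  rw [σ''.tr h]; linarith

theorem Exc.perturb {p x y : A} {ε ε' : ℝ} (h : Exc p y ε) (hp : IsStarProjection p)
    (hxy : ‖x - y‖ ≤ ε') : Exc p x (ε + ε') := by
  obtain ⟨c, hc⟩ := h
  refine ⟨c, ?_⟩
  have : p * x * p - c • p = (p * y * p - c • p) + p * (x - y) * p := by noncomm_ring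
  rw [this]
  refine (norm_add_le _ _).trans (add_le_add hc ?_)
  calc _ ≤ ‖p‖ * ‖x - y‖ * ‖p‖ := norm_mul₃_le
    _ ≤ 1 * ε' * 1 := by
      have := (norm_nonneg _).trans hxy
      gcongr <;> exact hp.norm_le
    _ = _ := by ring

theorem exists_fix {π : A →⋆ₙₐ[ℂ] (H₁ →L[ℂ] H₁)} {P : ℕ → A} (hP : Dec P) {ξ : ℕ → H₁}
    (h1 : ∀ n, ‖ξ n‖ = 1) (h2 : ∀ n, π (P n) (ξ n) = ξ n)
    (h3 : ∀ n, ‖ξ (n + 1) - ξ n‖ ≤ (1 / 2) ^ n) : ∃ η, ‖η‖ = 1 ∧ ∀ n, π (P n) η = η := by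
  obtain ⟨η, hη⟩ := cauchySeq_tendsto_of_complete (cauchySeq_of_le_geometric (1 / 2) 1
    (by norm_num) (f := ξ) fun n => by rw [dist_comm, dist_eq_norm, one_mul]; exact h3 n)
  refine ⟨η, tendsto_nhds_unique hη.norm (by simp only [h1]; exact tendsto_const_nhds),
    fun n => tendsto_nhds_unique (((π (P n)).continuous.tendsto _).comp hη) (hη.congr' ?_)⟩
  filter_upwards [eventually_ge_atTop n] with m hm
  rw [Function.comp_apply, ← h2 m, ← mul_apply_eq_comp, ← map_mul, hP.le n m hm]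

theorem exists_peaks (h : Rich τ) (h₁ : IsIrreducibleRep π₁) (h₂ : IsIrreducibleRep π₂)
    {𝒮 : Type} [Preorder 𝒮] (alg : 𝒮 → Set A) (hsep : ∀ S, TopologicalSpace.IsSeparable (alg S))
    (S₀ : 𝒮) (hext : ∀ S (x y z : A), ∃ S', S ≤ S' ∧ x ∈ alg S' ∧ y ∈ alg S' ∧ z ∈ alg S') :
    ∃ (S : ℕ → 𝒮) (P P' a : ℕ → A) (ξ : H₁) (ξ' : H₂), S₀ ≤ S 0 ∧ Monotone S ∧
      (∀ n, P n ∈ alg (S n) ∧ P' n ∈ alg (S n) ∧ a n ∈ alg (S n)) ∧ Dec P ∧ Dec P' ∧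
      (∀ n, star (a n) * a n = 1 - P n ∧ a n * star (a n) = 1 - P' n) ∧
      (∀ n m, n ≤ m → a m * (1 - P n) = a n ∧ star (a m) * (1 - P' n) = star (a n)) ∧
      Tendsto (fun n => (τ (P n)).re) atTop (𝓝 0) ∧ Tendsto (fun n => (τ (P' n)).re) atTop (𝓝 0) ∧
      ‖ξ‖ = 1 ∧ ‖ξ'‖ = 1 ∧ (∀ n, π₁ (P n) ξ = ξ) ∧ (∀ n, π₂ (P' n) ξ' = ξ') ∧
      ∀ k, ∀ x ∈ alg (S k), ∀ ε > 0, ∃ n, Exc (P n) x ε ∧ Exc (P' n) x ε := by
  obtain ⟨ξ₁, hξ₁⟩ := irr_exists_unit h₁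
  obtain ⟨ξ₂, hξ₂⟩ := irr_exists_unit h₂
  let σ₀ : St π₁ π₂ := ⟨1, 1, 0, ξ₁, ξ₂, .one _, .one _, by simp, by simp, hξ₁, hξ₂,
    by simp [irr_one h₁], by simp [irr_one h₂]⟩
  obtain ⟨S₁, hS₁⟩ := hext S₀ 1 1 0
  have hden : ∀ S, ∃ d : ℕ → A, alg S ⊆ closure (Set.range d) := fun S => by
    obtain ⟨c, hc, hc'⟩ := hsep S
    obtain ⟨d, hd⟩ := (hc.insert 0).exists_eq_range (Set.insert_nonempty _ _)
    exact ⟨d, hc'.trans (closure_mono (hd ▸ Set.subset_insert _ _))⟩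
  choose den hden using hden
  obtain ⟨X, y, hX, hy⟩ := exists_chain
    (X := {X : St π₁ π₂ × 𝒮 // S₀ ≤ X.2 ∧ X.1.P ∈ alg X.2 ∧ X.1.P' ∈ alg X.2 ∧ X.1.a ∈ alg X.2})
    ⟨(σ₀, S₁), hS₁⟩ (fun n X x X' => X.1.2 ≤ X'.1.2 ∧ Ext X.1.1 X'.1.1 ((1 / 2) ^ n) ∧
      (τ X'.1.1.P).re ≤ (1 / 2) ^ n ∧ Exc X'.1.1.P x ((1 / 2) ^ n) ∧ Exc X'.1.1.P' x ((1 / 2) ^ n))
    (fun n X x => by
      obtain ⟨σ', hσ'⟩ := full h h₁ h₂ X.1.1 x (ε := (1 / 2) ^ n) (by positivity)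
      obtain ⟨S', hS', hS''⟩ := hext X.1.2 σ'.P σ'.P' σ'.a
      exact ⟨⟨(σ', S'), X.2.1.trans hS', hS''⟩, hS', hσ'⟩) (fun X => den X.1.2)
  have hE : ∀ n m, n ≤ m → ∃ ε, Ext (X n).1.1 (X m).1.1 ε := by
    intro n m hnm
    induction m, hnm using Nat.le_induction with
    | base =>
      exact ⟨0, (X n).1.1.hP.isIdempotentElem.eq, (X n).1.1.hP'.isIdempotentElem.eq,
        pi_right (X n).1.1.hP.one_sub (X n).1.1.ha,
        pi_right (X n).1.1.hP'.one_sub (by rw [star_star, (X n).1.1.ha']), by simp, by simp⟩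
    | succ m _ ih => exact ⟨_, ih.choose_spec.trans (hX m).2.1⟩
  have d1 : Dec fun n => (X n).1.1.P :=
    ⟨fun n => (X n).1.1.hP, fun n m hnm => (hE n m hnm).choose_spec.p⟩
  have d2 : Dec fun n => (X n).1.1.P' :=
    ⟨fun n => (X n).1.1.hP', fun n m hnm => (hE n m hnm).choose_spec.p'⟩
  obtain ⟨ξ, hξ, hξ'⟩ := exists_fix d1 (fun n => (X n).1.1.n) (fun n => (X n).1.1.f)
    fun n => (hX n).2.1.v
  obtain ⟨η, hη, hη'⟩ := exists_fix d2 (fun n => (X n).1.1.n') (fun n => (X n).1.1.f')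
    fun n => (hX n).2.1.v'
  have hlim := tendsto_pow_atTop_nhds_zero_of_lt_one (r := (1 / 2 : ℝ)) (by norm_num) (by norm_num)
  have ht : Tendsto (fun n => (τ (X n).1.1.P).re) atTop (𝓝 0) := by
    rw [← tendsto_add_atTop_iff_nat 1]
    exact squeeze_zero (fun n => h.proj_nonneg (X (n + 1)).1.1.hP) (fun n => (hX n).2.2.1) hlim
  refine ⟨fun n => (X n).1.2, _, _, fun n => (X n).1.1.a, ξ, η, (X 0).2.1,
    monotone_nat_of_le_succ fun n => (hX n).1, fun n => (X n).2.2, d1, d2,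
    fun n => ⟨(X n).1.1.ha, (X n).1.1.ha'⟩,
    fun n m hnm => ⟨(hE n m hnm).choose_spec.a, (hE n m hnm).choose_spec.a'⟩, ht,
    by simpa only [St.tr h] using ht, hξ, hη, hξ', hη', fun k x hx ε hε => ?_⟩
  obtain ⟨_, ⟨j, rfl⟩, hj⟩ := Metric.mem_closure_iff.1 (hden _ hx) (ε / 2) (half_pos hε)
  obtain ⟨N, hN⟩ := (hlim.eventually (ge_mem_nhds (half_pos hε))).exists_forall_of_atTop
  obtain ⟨n, hn, hyn⟩ := hy k j N
  obtain ⟨-, -, -, e1, e2⟩ := hX n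
  rw [hyn] at e1 e2
  rw [dist_eq_norm] at hj
  refine ⟨n + 1, ?_, ?_⟩
  · exact (e1.perturb (d1.proj _) hj.le).mono (d1.proj _) (d1.proj _)
      (d1.proj _).isIdempotentElem.eq (by linarith [hN n hn])
  · exact (e2.perturb (d2.proj _) hj.le).mono (d2.proj _) (d2.proj _)
      (d2.proj _).isIdempotentElem.eq (by linarith [hN n hn])

end Crest.Agent.R120
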