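import Crest.Agent.R120.Idx

/-! Row 120: the transfinite construction. -/

set_option autoImplicit false

namespace Crest.Agent.R120

open Set Filter Topology
open scoped InnerProductSpace

variable {H : Type} [NormedAddCommGroup H] [InnerProductSpace ℂ H] [CompleteSpace H]
  (b : HilbertBasis (Gam Ix) ℂ H)

/-- data of a task -/
abbrev Dat (B : Type) : Type := (ℕ → B) × (ℕ → B) × B

/-- the data lies in the algebra of `T` -/
def InM (T : Set Ix) (d : Dat (H →L[ℂ] H)) : Prop :=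
  (∀ n, d.1 n ∈ MM b (sub T)) ∧ (∀ n, d.2.1 n ∈ MM b (sub T)) ∧ d.2.2 ∈ MM b (sub T)

/-- code of a task -/
noncomputable def code (s : ℕ → Ix) (d : Dat (H →L[ℂ] H)) : Code :=
  (fun n w => co b (d.1 n) (cmap s w) 1, fun n w => co b (d.2.1 n) (cmap s w) 1,
    fun w => co b d.2.2 (cmap s w) 1)

open Classical in
/-- the task of an index -/
noncomputable def task : Ix → Dat (H →L[ℂ] H)
  | .leaf => 0
  | .node s c => if h : ∃ d, InM b (range s) d ∧ code b s d = c then h.choose else 0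

theorem inM_zero (T : Set Ix) : InM b T 0 := ⟨fun _ => zero_mem _, fun _ => zero_mem _, zero_mem _⟩

theorem task_inM (γ : Ix) : InM b (dep γ) (task b γ) := by
  cases γ with
  | leaf => exact inM_zero b _
  | node s c =>
    rw [task]
    split_ifs with h
    · exact h.choose_spec.1
    · exact inM_zero b _

theorem exists_task {S : Set Ix} (hS : S.Countable) (hne : S.Nonempty) {d : Dat (H →L[ℂ] H)}
    (hd : InM b S d) : ∃ γ, dep γ = S ∧ task b γ = d := by
  obtain ⟨s, rfl⟩ := hS.exists_eq_range hne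
  refine ⟨.node s (code b s d), rfl, ?_⟩
  have h : ∃ d', InM b (range s) d' ∧ code b s d' = code b s d := ⟨d, hd, rfl⟩
  rw [task, dif_pos h]
  obtain ⟨h1, h2⟩ := h.choose_spec
  generalize h.choose = d' at h1 h2
  simp only [code, Prod.mk.injEq] at h2
  have key : ∀ x y : H →L[ℂ] H, x ∈ MM b (sub (range s)) → y ∈ MM b (sub (range s)) →
      ((fun w => co b x (cmap s w) 1) = fun w => co b y (cmap s w) 1) → x = y :=
    fun x y hx hy hxy => MM_ext b hx hy fun g hg => by
      obtain ⟨w, rfl⟩ := sub_le_range s hg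
      exact congrFun hxy w
  exact Prod.ext (funext fun n => key _ _ (h1.1 n) (hd.1 n) (congrFun h2.1 n))
    (Prod.ext (funext fun n => key _ _ (h1.2.1 n) (hd.2.1 n) (congrFun h2.2.1 n))
      (key _ _ h1.2.2 hd.2.2 h2.2.2))

variable {K : Type} [NormedAddCommGroup K] [InnerProductSpace ℂ K] [CompleteSpace K]
  (ρ : (H →L[ℂ] H) →⋆ₐ[ℂ] (K →L[ℂ] K))

/-- validity of a task relative to the algebra `C` -/
structure Valid (C : StarSubalgebra ℂ (H →L[ℂ] H)) (d : Dat (H →L[ℂ] H)) : Prop where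
  dec : Dec d.1
  dec' : Dec d.2.1
  mem : ∀ n, d.1 n ∈ C
  mem' : ∀ n, d.2.1 n ∈ C
  mema : ∀ n, d.2.2 * (1 - d.1 n) ∈ C
  tr : Tendsto (fun n => (tau b (d.1 n)).re) atTop (𝓝 0)
  tr' : Tendsto (fun n => (tau b (d.2.1 n)).re) atTop (𝓝 0)
  uni : d.2.2 ∈ unitary (H →L[ℂ] H)
  int : ∀ n, d.2.2 * d.1 n = d.2.1 n * d.2.2
  mini : Mini ρ (hat ρ d.1) C
  mini' : Mini ρ (hat ρ d.2.1) C

/-- the base generators -/
def base : Set (H →L[ℂ] H) := range fun k => lam b (cc Ix k)

/-- active stages -/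
def Act (w : Ix → H →L[ℂ] H) (γ : Ix) : Prop :=
  Cl dep (dep γ) ∧ Valid b ρ (AA (base b) w (dep γ)) (task b γ) ∧
    Orth ρ (hat ρ (task b γ).1) (hat ρ (task b γ).2.1) (AA (base b) w (Iio γ))

/-- the recursion equation -/
def Rec (v : Ix → H →L[ℂ] H) : Prop :=
  ∀ γ, (Act b ρ v γ → v γ = (task b γ).2.2) ∧ (¬ Act b ρ v γ → v γ = lam b (gen γ))

theorem exists_Rec : ∃ v, Rec b ρ v := by
  classical
  obtain ⟨v, hv⟩ := exists_rec (I := Ix) (0 : H →L[ℂ] H)
    (fun γ w => if Act b ρ w γ then (task b γ).2.2 else lam b (gen γ)) fun γ w w' hw => by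
      have h1 : ∀ T ⊆ Iio γ, AA (base b) w T = AA (base b) w' T := fun T hT => by
        rw [AA, AA, image_congr fun β hβ => hw β (hT hβ)]
      have h2 : Act b ρ w γ ↔ Act b ρ w' γ := by
        simp only [Act, h1 _ (dep_lt γ), h1 _ subset_rfl]
      simp only [h2]
  exact ⟨v, fun γ => ⟨fun h => by rw [hv, if_pos h], fun h => by rw [hv, if_neg h]⟩⟩

variable {b ρ} {v : Ix → H →L[ℂ] H}

theorem Rec.le_MM (hv : Rec b ρ v) {T : Set Ix} (hT : Cl dep T) :
    AA (base b) v T ≤ MM b (sub T) := by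
  refine cs_le (isClosed_MM b _) ?_
  rintro _ (⟨k, rfl⟩ | ⟨γ, hγ, rfl⟩)
  · exact lam_mem b (cc_mem T k)
  · by_cases h : Act b ρ v γ
    · rw [(hv γ).1 h]; exact MM_mono b (sub_mono (hT γ hγ)) (task_inM b γ).2.2
    · rw [(hv γ).2 h]; exact lam_mem b (gen_mem hγ)

theorem om_free {T : Set Ix} {γ : Ix} (h : γ ∉ T) :
    ∀ g ∈ sub T, ∀ w ∈ Om γ, g * w ∈ Om γ → g = 1 :=
  fun _ hg _ hw h' => eq_one_of_mem_Om h hg hw h'

theorem Rec.pk (hv : Rec b ρ v) {S : Set Ix} {p : ℕ → H →L[ℂ] H} (hp : Dec p)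
    (hm : ∀ n, p n ∈ AA (base b) v S) (ht : Tendsto (fun n => (tau b (p n)).re) atTop (𝓝 0)) :
    Pk ρ (base b) v dep (fun γ => ρ (QQ b (Om γ))) (hat ρ p) S := by
  have hd := hp.map ρ
  refine ⟨hd.plim_proj, ⟨p, hm, ⟨1, fun n => (hd.proj n).norm_le⟩, hd.tendsto, ?_⟩, ?_⟩
  · simp only [(hd.proj _).isSelfAdjoint.star_eq, hat, hd.plim_proj.isSelfAdjoint.star_eq]
    exact hd.tendsto
  · intro T hST hT γ hγ x hx
    rw [Submodule.mem_bot, ← norm_le_zero_iff]
    refine ge_of_tendsto' (by simpa using (tendsto_b_one b hp.proj ht).const_mul ‖x‖) fun n => ?_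
    have h1 : p n * x ∈ MM b (sub T) := hv.le_MM hT (mul_mem (AA_mono _ _ hST (hm n)) hx)
    have h2 := norm_mul_QQ b (om_free hγ) h1
    rw [← norm_star_b b h1, star_mul, (hp.proj n).isSelfAdjoint.star_eq, mul_apply_eq_comp] at h2
    have h3 := (star x).le_opNorm (p n (b 1))
    rw [norm_star] at h3
    have h4 : hat ρ p * ρ x * ρ (QQ b (Om γ)) = hat ρ p * ρ (p n * x * QQ b (Om γ)) := by
      rw [map_mul, map_mul, ← mul_assoc, ← mul_assoc, hat, hd.plim_mul]
    rw [h4]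
    calc _ ≤ ‖hat ρ p‖ * ‖ρ (p n * x * QQ b (Om γ))‖ := norm_mul_le _ _
      _ ≤ 1 * ‖p n * x * QQ b (Om γ)‖ := by
        gcongr
        · exact hd.plim_proj.norm_le
        · exact NonUnitalStarAlgHom.norm_apply_le ρ _
      _ ≤ _ := by linarith

theorem lam_gen_star (γ : Ix) : star (lam b (gen γ)) = lam b (gen γ) := by
  rw [star_lam, inv_eq_of_mul_eq_one_right (gen_mul_self γ)]

theorem lam_gen_sq (γ : Ix) : lam b (gen γ) * lam b (gen γ) = 1 := by
  rw [← lam_mul, gen_mul_self, lam_one]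

theorem Rec.sys (hv : Rec b ρ v) : Sys ρ (base b) v dep (fun γ => ρ (QQ b (Om γ))) := by
  refine ⟨dep_lt, fun γ => (QQ_proj b _).map ρ, fun T hT γ hγ x hx => ⟨tau b x, ?_⟩, fun γ => ?_⟩
  · rw [← map_mul, ← map_mul, QQ_mul_QQ b (om_free hγ) (hv.le_MM hT hx), map_smul]
  by_cases h : Act b ρ v γ
  · obtain ⟨h1, h2, h3⟩ := id h
    have h4 := (hv γ).1 h
    have d1 := h2.dec.map ρ
    have d2 := h2.dec'.map ρ
    refine Or.inr ⟨_, _, h1, hv.pk h2.dec h2.mem h2.tr, hv.pk h2.dec' h2.mem' h2.tr',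
      h4 ▸ h2.uni, ?_, ?_, h2.mini, h2.mini', h3⟩
    · rw [h4]
      ext ζ
      refine tendsto_nhds_unique (((ρ _).continuous.tendsto _).comp (d1.tendsto ζ))
        ((d2.tendsto _).congr fun n => ?_)
      change (ρ _ * ρ _) ζ = (ρ _ * ρ _) ζ
      rw [← map_mul, ← map_mul, h2.int]
    · rw [h4]
      refine ⟨_, h2.mema, ⟨‖ρ (task b γ).2.2‖ * 1, fun n => ?_⟩, fun ζ => ?_, fun ζ => ?_⟩
      · rw [map_mul]
        exact (norm_mul_le _ _).trans (mul_le_mul_of_nonneg_left
          ((h2.dec.proj n).one_sub.map ρ).norm_le (norm_nonneg _))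
      · simp only [map_mul, map_sub, map_one, mul_apply_eq_comp, sub_apply, one_apply_eq_self]
        exact tendsto_const_nhds.sub (((ρ _).continuous.tendsto _).comp (d1.tendsto ζ))
      · simp only [map_mul, map_sub, map_one, star_mul, star_sub, star_one,
          (d1.proj _).isSelfAdjoint.star_eq, hat, d1.plim_proj.isSelfAdjoint.star_eq,
          mul_apply_eq_comp, sub_apply, one_apply_eq_self]
        exact tendsto_const_nhds.sub (d1.tendsto _)
  · rw [(hv γ).2 h]
    refine Or.inl ⟨lam_gen_star γ, lam_gen_sq γ, ?_⟩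
    simpa using congrArg ρ (QQ_lam b fun w hw => gen_mul_mem_Om (γ := γ) hw)

theorem Rec.exists_free (hv : Rec b ρ v) {S : Set Ix} (hS : S.Countable) (hne : S.Nonempty) :
    ∃ γ ∉ S, v γ = lam b (gen γ) := by
  obtain ⟨γ, h1, h2⟩ := exists_task b hS hne (inM_zero b S)
  refine ⟨γ, fun h => lt_irrefl γ (dep_lt γ (h1 ▸ h)), (hv γ).2 fun h => ?_⟩
  have h3 := h.2.1.uni.1
  rw [h2] at h3
  have h4 := congrArg (tau b) h3
  rw [tau_one] at h4
  simp at h4

theorem exists_cl_AA (B₀ : Set (H →L[ℂ] H)) (v : Ix → H →L[ℂ] H) {S : Set Ix} (hS : S.Countable)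
    {x : H →L[ℂ] H} (hx : x ∈ AA B₀ v univ) :
    ∃ T : Set Ix, T.Countable ∧ Cl dep T ∧ S ⊆ T ∧ x ∈ AA B₀ v T := by
  obtain ⟨T, hT, hx⟩ := exists_countable_AA B₀ v hx
  obtain ⟨T', h1, h2, h3⟩ := exists_cl_of_countable (hS.union hT)
  exact ⟨T', h1, h2, subset_union_left.trans h3, AA_mono _ _ (subset_union_right.trans h3) hx⟩

instance (B₀ : Set (H →L[ℂ] H)) (v : Ix → H →L[ℂ] H) :
    IsClosed (AA B₀ v univ : Set (H →L[ℂ] H)) := isClosed_cs _

variable (b v) in
/-- the trace on the final algebra -/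
noncomputable def tA : AA (base b) v univ →ₗ[ℂ] ℂ :=
  (tau b).toLinearMap ∘ₗ (AA (base b) v univ).subtype.toAlgHom.toLinearMap

theorem tA_apply (x : AA (base b) v univ) : tA b v x = tau b x := rfl

variable (b v) in
/-- base involutions in the final algebra -/
noncomputable def cA (k : ℕ) : AA (base b) v univ :=
  ⟨lam b (cc Ix k), subset_cs _ (Or.inl ⟨k, rfl⟩)⟩

theorem proj_coe {C : StarSubalgebra ℂ (H →L[ℂ] H)} {e : C} (he : IsStarProjection e) :
    IsStarProjection (e : H →L[ℂ] H) := he.map C.subtype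

theorem exists_partition (k : ℕ) : ∃ L : List (AA (base b) v univ), L.sum = 1 ∧ ∀ e ∈ L,
    IsStarProjection e ∧ (e : H →L[ℂ] H) ∈ MM b (Subgroup.closure {x | ∃ j < k, x = cc Ix j}) ∧
      (∀ j, Commute e (cA b v j)) ∧ tA b v e = (1 / 2) ^ k := by
  induction k with
  | zero => exact ⟨[1], by simp, by simp [tA_apply, tau_one, IsStarProjection.one]⟩
  | succ k ih =>
    obtain ⟨L, hL, hL'⟩ := ih
    have c1 : star (cA b v k) = cA b v k := Subtype.ext (by
      change star (lam b _) = lam b _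
      rw [star_lam, inv_eq_of_mul_eq_one_right (cc_mul_self k)])
    have c2 : cA b v k * cA b v k = 1 := Subtype.ext (by
      change lam b _ * lam b _ = 1
      rw [← lam_mul, cc_mul_self, lam_one])
    have c3 : ∀ j, Commute (cA b v k) (cA b v j) := fun j => Subtype.ext (by
      change lam b _ * lam b _ = lam b _ * lam b _
      rw [← lam_mul, ← lam_mul, cc_comm])
    have key : ∀ s : ℝ, s * s = 1 → ∀ e ∈ L, let f := e * ((1 / 2 : ℂ) • (1 + (s : ℂ) • cA b v k))
        IsStarProjection f ∧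
        (f : H →L[ℂ] H) ∈ MM b (Subgroup.closure {x | ∃ j < k + 1, x = cc Ix j}) ∧
        (∀ j, Commute f (cA b v j)) ∧ tA b v f = (1 / 2) ^ (k + 1) := by
      intro s hs e he
      obtain ⟨h1, h2, h3, h4⟩ := hL' e he
      have hs' : (s : ℂ) * s = 1 := by exact_mod_cast hs
      refine ⟨h1.mul ⟨?_, ?_⟩ ?_, ?_, fun j => ?_, ?_⟩
      · simp only [IsIdempotentElem, smul_mul_assoc, mul_smul_comm, add_mul, mul_add, one_mul,
          mul_one, c2, smul_add, smul_smul]
        match_scalars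
        · linear_combination (1 / 4) * hs'
        · ring
      · simp [IsSelfAdjoint, c1]
      · exact ((Commute.one_right e).add_right ((h3 k).smul_right _)).smul_right _
      · refine mul_mem (MM_mono b (Subgroup.closure_mono ?_) h2) ((MM b _).smul_mem
          (add_mem (one_mem _) ((MM b _).smul_mem
          (lam_mem b (Subgroup.subset_closure (by exact ⟨k, k.lt_succ_self, rfl⟩))) _)) _)
        rintro x ⟨j, hj, rfl⟩
        exact ⟨j, hj.trans k.lt_succ_self, rfl⟩
      · exact (h3 j).mul_left (((Commute.one_left _).add_left ((c3 j).smul_left _)).smul_left _)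
      · have h5 : tA b v (e * cA b v k) = 0 := tau_mul_lam b h2 (cc_notMem k)
        simp only [mul_smul_comm, mul_add, mul_one, map_smul, map_add, h4, h5, smul_eq_mul]
        ring
    refine ⟨L.map (· * ((1 / 2 : ℂ) • (1 + ((1 : ℝ) : ℂ) • cA b v k))) ++
      L.map (· * ((1 / 2 : ℂ) • (1 + ((-1 : ℝ) : ℂ) • cA b v k))), ?_, fun e he => ?_⟩
    · rw [List.sum_append, List.sum_map_mul_right, List.sum_map_mul_right, List.map_id', hL]
      push_cast
      simp only [one_mul]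
      module
    · rcases List.mem_append.1 he with he | he <;> obtain ⟨f, hf, rfl⟩ := List.mem_map.1 he
      · exact key 1 (by norm_num) f hf
      · exact key (-1) (by norm_num) f hf

theorem Rec.rich (hv : Rec b ρ v) : Rich (tA b v) := by
  have hM : ∀ x : AA (base b) v univ, (x : H →L[ℂ] H) ∈ MM b (sub univ) := fun x =>
    hv.le_MM (fun _ _ => subset_univ _) x.2
  have h0 : ∀ x : AA (base b) v univ, tA b v (star x * x) = ((‖(x : H →L[ℂ] H) (b 1)‖ ^ 2 : ℝ) : ℂ) :=
    fun x => tau_star_mul_self b x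
  refine ⟨⟨tau_one b, fun x => ?_, fun x hx => Subtype.ext (tau_faithful b (hM x) hx),
    fun x y => tau_comm b (hM x) (hM y)⟩, fun x e hx he hlt => ?_, fun ε hε => ?_⟩
  · rw [h0, Complex.ofReal_im, Complex.ofReal_re]; exact ⟨rfl, sq_nonneg _⟩
  · obtain ⟨S, h1, h2, h3, hxS⟩ := exists_cl_AA _ v (countable_singleton Ix.leaf) x.2
    obtain ⟨T, h4, h5, h6, heT⟩ := exists_cl_AA _ v h1 e.2
    obtain ⟨γ, hγ, hg⟩ := hv.exists_free h4 ⟨_, h6 (h3 rfl)⟩
    let g : AA (base b) v univ := ⟨v γ, mem_AA _ _ (mem_univ γ)⟩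
    obtain ⟨c, hc⟩ : ∃ c : ℝ, c = ‖(x : H →L[ℂ] H) (b 1)‖ ^ 2 := ⟨_, rfl⟩
    have hc1 : c ≤ 1 := by
      have := (x : H →L[ℂ] H).le_of_opNorm_le hx (b 1)
      rw [b.orthonormal.1 1] at this
      rw [hc]; nlinarith [norm_nonneg ((x : H →L[ℂ] H) (b 1))]
    have hc0 : 0 ≤ c := hc ▸ sq_nonneg _
    rw [h0, ← hc, Complex.ofReal_re, tA_apply, tau_proj b (proj_coe he)] at hlt
    have hlt' : 4 * ‖(e : H →L[ℂ] H) (b 1)‖ < c :=
      lt_of_pow_lt_pow_left₀ 2 hc0 (by linarith)
    have hxM := hv.le_MM h5 (AA_mono _ _ h6 hxS)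
    have g1 : star g = g := Subtype.ext (by change star (v γ) = v γ; rw [hg, lam_gen_star])
    have g2 : g * g = 1 := Subtype.ext (by change v γ * v γ = 1; rw [hg, lam_gen_sq])
    obtain ⟨z, hz⟩ := exists_pi (y := x * g * e) (c := c) he
      (by rw [mul_assoc, he.isIdempotentElem.eq]) (by
        have e1 : star (x * g * e) * (x * g * e) - c • e =
            e * (g * (star x * x - c • 1) * g) * e := by
          simp only [star_mul, g1, he.isSelfAdjoint.star_eq, mul_sub, sub_mul, mul_assoc,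
            smul_mul_assoc, mul_smul_comm, one_mul]
          rw [← mul_assoc g g, g2, one_mul, he.isIdempotentElem.eq]
        rw [e1]
        have e2 := pp_est (g := v γ) (x := star (x : H →L[ℂ] H) * x - c • 1) (QQ_proj b (Om γ))
          (proj_coe he) (pi_norm (.one _) (by rw [hg, lam_gen_star, lam_gen_sq]))
          (by rw [hg]; exact QQ_lam b fun w hw => gen_mul_mem_Om hw) (by
            rw [mul_sub, sub_mul, QQ_mul_QQ b (om_free hγ) (mul_mem (star_mem hxM) hxM),
              tau_star_mul_self, ← hc]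
            simp [(QQ_proj b (Om γ)).isIdempotentElem.eq])
        have e3 := norm_mul_QQ b (om_free hγ) (hv.le_MM h5 heT)
        have e4 : ‖star (x : H →L[ℂ] H) * x - c • 1‖ ≤ 2 := by
          refine (norm_sub_le _ _).trans ?_
          have e5 : ‖(1 : H →L[ℂ] H)‖ ≤ 1 := (IsStarProjection.one _).norm_le
          have e6 : ‖(x : H →L[ℂ] H)‖ ≤ 1 := hx
          rw [CStarRing.norm_star_mul_self, norm_smul, Real.norm_of_nonneg hc0]
          nlinarith [norm_nonneg (x : H →L[ℂ] H), norm_nonneg (1 : H →L[ℂ] H)]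
        refine lt_of_le_of_lt (e2.trans ?_) hlt'
        nlinarith [norm_nonneg ((e : H →L[ℂ] H) * QQ b (Om γ)),
          norm_nonneg (star (x : H →L[ℂ] H) * x - c • 1)])
    exact ⟨g * e * z, by simpa only [mul_assoc] using hz⟩
  · obtain ⟨k, hk⟩ := exists_pow_lt_of_lt_one hε (show (1 / 2 : ℝ) < 1 by norm_num)
    obtain ⟨L, h1, h2⟩ := exists_partition (b := b) (v := v) k
    refine ⟨L, fun e he => ⟨(h2 e he).1, ?_⟩, h1⟩
    rw [(h2 e he).2.2.2, show ((1 / 2 : ℂ)) ^ k = (((1 / 2 : ℝ) ^ k : ℝ) : ℂ) by push_cast; rfl,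
      Complex.ofReal_re]
    exact hk.le

theorem not_finiteDimensional : ¬ FiniteDimensional ℂ (AA (base b) v univ) := by
  intro h
  let f : AA (base b) v univ →ₗ[ℂ] H := (ContinuousLinearMap.apply ℂ H (b 1)).toLinearMap ∘ₗ
    (AA (base b) v univ).subtype.toAlgHom.toLinearMap
  refine Module.Finite.not_linearIndependent_of_infinite (R := ℂ) (cA b v)
    (LinearIndependent.of_comp f ?_)
  have : f ∘ cA b v = b ∘ cc Ix := by
    ext k
    change lam b _ (b 1) = _
    rw [lam_b, mul_one]; rfl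
  rw [this]
  exact (b.orthonormal.comp _ cc_injective).linearIndependent

end Crest.Agent.R120
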