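import Crest.Prelude.Def_CStarRep

/-! Row 120: irreducible representations: Schur's lemma and a density theorem. -/

set_option autoImplicit false

namespace Crest.Agent.R120

open Crest.OpAlg
open scoped InnerProductSpace ComplexConjugate

variable {A : Type} [CStarAlgebra A]
variable {H : Type} [NormedAddCommGroup H] [InnerProductSpace ℂ H] [CompleteSpace H]
variable {H₂ : Type} [NormedAddCommGroup H₂] [InnerProductSpace ℂ H₂] [CompleteSpace H₂]
variable {π : A →⋆ₙₐ[ℂ] (H →L[ℂ] H)} {π₂ : A →⋆ₙₐ[ℂ] (H₂ →L[ℂ] H₂)}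

theorem irr_ker (hπ : IsIrreducibleRep π) {T : H →L[ℂ] H} (hT : ∀ a, T * π a = π a * T) :
    T = 0 ∨ ∀ v, T v = 0 → v = 0 := by
  rcases hπ.2 T.ker T.isClosed_ker (fun a v hv => by
    have hv' : T v = 0 := hv
    change T (π a v) = 0
    rw [← mul_apply_eq_comp, hT, mul_apply_eq_comp, hv', map_zero]) with h | h
  · exact Or.inr fun v hv => (Submodule.eq_bot_iff _).1 h v hv
  · left; ext v
    exact (h ▸ Submodule.mem_top : v ∈ T.ker)

theorem irr_one (hπ : IsIrreducibleRep π) : π 1 = 1 := by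
  rcases irr_ker hπ (T := π 1) (fun a => by rw [← map_mul, ← map_mul]; simp) with h | h
  · exfalso
    apply hπ.1
    ext a v
    rw [← one_mul a, map_mul, h]; simp
  · ext v
    have := h (π 1 v - v) (by rw [map_sub, ← mul_apply_eq_comp, ← map_mul]; simp)
    simpa [sub_eq_zero] using this

theorem irr_exists_unit (hπ : IsIrreducibleRep π) : ∃ ξ : H, ‖ξ‖ = 1 := by
  have : Nontrivial H := by
    by_contra h
    rw [not_nontrivial_iff_subsingleton] at h
    exact hπ.1 (by ext a v; exact Subsingleton.elim _ _)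
  exact exists_norm_eq H zero_le_one

/-- evaluation at a vector -/
noncomputable def ev (π : A →⋆ₙₐ[ℂ] (H →L[ℂ] H)) (ξ : H) : A →ₗ[ℂ] H where
  toFun a := π a ξ
  map_add' a b := by simp
  map_smul' c a := by simp

theorem irr_dense (hπ : IsIrreducibleRep π) {ξ : H} (hξ : ξ ≠ 0) : DenseRange (ev π ξ) := by
  rcases hπ.2 (LinearMap.range (ev π ξ)).topologicalClosure
    (Submodule.isClosed_topologicalClosure _) (fun a v hv => by
      refine map_mem_closure (π a).continuous hv ?_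
      rintro _ ⟨c, rfl⟩
      exact ⟨a * c, by simp [ev]⟩) with h | h
  · exfalso
    exact hξ ((Submodule.eq_bot_iff _).1 h ξ
      (Submodule.le_topologicalClosure _ ⟨1, by simp [ev, irr_one hπ]⟩))
  · exact Submodule.dense_iff_topologicalClosure_eq_top.2 h

theorem irr_schur_sa (hπ : IsIrreducibleRep π) {T : H →L[ℂ] H} (hsa : IsSelfAdjoint T)
    (hT : ∀ a, T * π a = π a * T) : ∃ c : ℝ, T = algebraMap ℝ _ c := by
  have key : ∀ s ∈ spectrum ℝ T, ∀ t ∈ spectrum ℝ T, ¬ s < t := by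
    intro s hs t ht hst
    have h1 : ∀ f : ℝ → ℝ, ∀ a, cfc f T * π a = π a * cfc f T := fun f a =>
      (Commute.cfc_real (hT a) f).eq
    have h2 : ∀ f : ℝ → ℝ, Continuous f → ∀ x ∈ spectrum ℝ T, f x ≠ 0 → cfc f T ≠ 0 := by
      intro f hf x hx hfx h0
      have := norm_apply_le_norm_cfc f T hx
      rw [h0, norm_zero] at this
      exact hfx (norm_le_zero_iff.1 this)
    have h3 : cfc (fun x => max (x - (s + t) / 2) 0) T * cfc (fun x => max ((s + t) / 2 - x) 0) T
        = 0 := by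
      rw [← cfc_mul .., ← cfc_zero ℝ T]
      refine cfc_congr fun x _ => ?_
      rcases le_total x ((s + t) / 2) with h | h
      · simp [max_eq_right (sub_nonpos.2 h)]
      · simp [max_eq_right (sub_nonpos.2 h)]
    rcases irr_ker hπ (h1 (fun x => max (x - (s + t) / 2) 0)) with h | h
    · exact h2 (fun x => max (x - (s + t) / 2) 0) (by fun_prop) t ht
        (lt_max_of_lt_left (by linarith)).ne' h
    · refine h2 (fun x => max ((s + t) / 2 - x) 0) (by fun_prop) s hs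
        (lt_max_of_lt_left (by linarith)).ne' ?_
      ext v
      exact h _ (by rw [← mul_apply_eq_comp, h3]; rfl)
  obtain ⟨c, hc⟩ : ∃ c, ∀ s ∈ spectrum ℝ T, s = c := by
    rcases (spectrum ℝ T).eq_empty_or_nonempty with h | ⟨c, hc⟩
    · exact ⟨0, by simp [h]⟩
    · exact ⟨c, fun s hs => le_antisymm (not_lt.1 (key c hc s hs)) (not_lt.1 (key s hs c hc))⟩
  refine ⟨c, ?_⟩
  rw [← cfc_const c T, ← cfc_id' ℝ T (ha := hsa)]
  nth_rewrite 2 [cfc_id' ℝ T (ha := hsa)]
  exact cfc_congr hc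

theorem irr_schur (hπ : IsIrreducibleRep π) {T : H →L[ℂ] H}
    (hT : ∀ a, T * π a = π a * T) : ∃ c : ℂ, ∀ v, T v = c • v := by
  have hT' : ∀ a, star T * π a = π a * star T := fun a => by
    simpa [← map_star] using (congrArg star (hT (star a))).symm
  obtain ⟨c, hc⟩ := irr_schur_sa hπ (IsSelfAdjoint.add_star_self T)
    fun a => by rw [add_mul, mul_add, hT, hT']
  obtain ⟨d, hd⟩ := irr_schur_sa hπ (IsSelfAdjoint.add_star_self (Complex.I • T))
    fun a => by simp [add_mul, mul_add, hT, hT']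
  refine ⟨(c - Complex.I * d) / 2, fun v => ?_⟩
  have h1 := DFunLike.congr_fun hc v
  have h2 := DFunLike.congr_fun hd v
  simp only [Algebra.algebraMap_eq_smul_one, add_apply, smul_apply, one_apply_eq_self, star_smul,
    RCLike.star_def, Complex.conj_I, neg_smul, neg_apply] at h1 h2
  rw [← Complex.coe_smul] at h1 h2
  have h3 : (2 : ℂ) • T v = (c : ℂ) • v - Complex.I • (d : ℂ) • v := by
    rw [← h1, ← h2, smul_add, smul_neg, smul_smul, smul_smul, Complex.I_mul_I]
    module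
  rw [div_eq_inv_mul, mul_smul, sub_smul, mul_smul, ← h3, smul_smul]
  simp

theorem irr_unitary (hπ : IsIrreducibleRep π) (hπ₂ : IsIrreducibleRep π₂) {ξ : H} {η : H₂}
    (hξ : ξ ≠ 0) (h : ∀ a, ‖π₂ a η‖ = ‖π a ξ‖) :
    ∃ U : H ≃ₗᵢ[ℂ] H₂, (∀ a v, U (π a v) = π₂ a (U v)) ∧ U ξ = η := by
  have hη : η ≠ 0 := by
    rintro rfl
    have := h 1
    rw [irr_one hπ, map_zero, norm_zero] at this
    exact hξ (norm_eq_zero.1 this.symm)
  let U := (LinearEquiv.refl ℂ A).extendOfIsometry (ev π ξ) (ev π₂ η) (irr_dense hπ hξ)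
    (irr_dense hπ₂ hη) h
  have hU : ∀ a, U (π a ξ) = π₂ a η := fun a =>
    LinearEquiv.extendOfIsometry_eq _ _ _ (irr_dense hπ hξ) (irr_dense hπ₂ hη) h a
  refine ⟨U, fun a v => ?_, by simpa [irr_one hπ, irr_one hπ₂] using hU 1⟩
  refine (irr_dense hπ hξ).induction_on (p := fun v => U (π a v) = π₂ a (U v)) v
    (isClosed_eq (by fun_prop) (by fun_prop)) fun c => ?_
  change U (π a (π c ξ)) = π₂ a (U (π c ξ))
  rw [← mul_apply_eq_comp, ← map_mul, hU, hU, map_mul, mul_apply_eq_comp]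

theorem rep_inner (π : A →⋆ₙₐ[ℂ] (H →L[ℂ] H)) (a : A) (x y : H) :
    ⟪π a x, y⟫_ℂ = ⟪x, π (star a) y⟫_ℂ := by
  rw [map_star, ContinuousLinearMap.star_eq_adjoint, ContinuousLinearMap.adjoint_inner_right]

theorem rep_norm_sq (π : A →⋆ₙₐ[ℂ] (H →L[ℂ] H)) (a : A) (x : H) :
    ‖π a x‖ ^ 2 = (⟪x, π (star a * a) x⟫_ℂ).re := by
  rw [map_mul, mul_apply_eq_comp, ← rep_inner, ← inner_self_eq_norm_sq (𝕜 := ℂ)]; rfl

theorem irr_sa_dense (hπ : IsIrreducibleRep π) {ζ β : H} (hζ : ζ ≠ 0) (hβ : (⟪ζ, β⟫_ℂ).im = 0)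
    {ε : ℝ} (hε : 0 < ε) : ∃ k : A, IsSelfAdjoint k ∧ ‖π k ζ - β‖ < ε := by
  let V : Set H := {v | ∃ k : A, IsSelfAdjoint k ∧ π k ζ = v}
  have hsm : ∀ (t : ℝ) (k : A), π (t • k) ζ = (t : ℂ) • π k ζ := fun t k => by
    rw [← Complex.coe_smul, map_smul]; rfl
  have hV : Convex ℝ V := by
    rintro _ ⟨k, hk, rfl⟩ _ ⟨l, hl, rfl⟩ s t _ _ _
    exact ⟨s • k + t • l, ((IsSelfAdjoint.all s).smul hk).add ((IsSelfAdjoint.all t).smul hl),
      by simp [hsm]⟩
  suffices hβV : β ∈ closure V by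
    obtain ⟨_, ⟨k, hk, rfl⟩, h⟩ := Metric.mem_closure_iff.1 hβV ε hε
    exact ⟨k, hk, by rwa [dist_comm, dist_eq_norm] at h⟩
  by_contra hc
  obtain ⟨f, u, hf, hu⟩ := RCLike.geometric_hahn_banach_point_closed (𝕜 := ℂ) hV.closure
    isClosed_closure hc
  obtain ⟨α, rfl⟩ := (InnerProductSpace.toDual ℂ H).surjective f
  simp only [InnerProductSpace.toDual_apply_apply, RCLike.re_to_complex] at hf hu
  have h0 : u < 0 := by simpa using hu 0 (subset_closure ⟨0, .zero _, by simp⟩)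
  have h1 : ∀ k : A, IsSelfAdjoint k → (⟪α, π k ζ⟫_ℂ).re = 0 := by
    intro k hk
    by_contra hne
    have := hu _ (subset_closure ⟨(u / (⟪α, π k ζ⟫_ℂ).re) • k,
      (IsSelfAdjoint.all _).smul hk, rfl⟩)
    rw [hsm, inner_smul_right, Complex.re_ofReal_mul, div_mul_cancel₀ _ hne] at this
    exact lt_irrefl _ this
  obtain ⟨c, hc⟩ : ∃ c : ℂ, α = c • ζ := by
    by_cases h2 : ζ + α = 0
    · exact ⟨-1, by rw [neg_smul, one_smul]; exact eq_neg_of_add_eq_zero_right h2⟩
    obtain ⟨U, hU, hU'⟩ := irr_unitary hπ hπ (η := ζ - α) h2 fun a => by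
      have h3 := h1 _ (IsSelfAdjoint.star_mul_self a)
      rw [map_mul, mul_apply_eq_comp, ← rep_inner] at h3
      refine (pow_left_inj₀ (norm_nonneg _) (norm_nonneg _) two_ne_zero).1 ?_
      rw [map_sub, map_add, @norm_sub_sq ℂ, @norm_add_sq ℂ, inner_re_symm]
      simp [h3]
    obtain ⟨c, hc⟩ := irr_schur hπ (T := U.toContinuousLinearEquiv.toContinuousLinearMap)
      fun a => by ext v; exact hU a v
    have h4 : ζ - α = c • (ζ + α) := hU'.symm.trans (hc _)
    have h5 : (1 + c) • α = (1 - c) • ζ := by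
      linear_combination (norm := module) (-1 : ℂ) • h4
    have h6 : 1 + c ≠ 0 := by
      intro h
      have : c = -1 := by linear_combination h
      rw [h, zero_smul, this, eq_comm, smul_eq_zero] at h5
      norm_num [hζ] at h5
    exact ⟨(1 + c)⁻¹ * (1 - c), by rw [mul_smul, ← h5, smul_smul, inv_mul_cancel₀ h6, one_smul]⟩
  have h7 := h1 1 (.one _)
  rw [irr_one hπ, one_apply_eq_self, hc, inner_smul_left, inner_self_eq_norm_sq_to_K] at h7
  have h8 : c.re = 0 := by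
    have : c.re * ‖ζ‖ ^ 2 = 0 := by simpa [← Complex.ofReal_pow] using h7
    exact (mul_eq_zero.1 this).resolve_right (pow_ne_zero _ (norm_ne_zero_iff.2 hζ))
  rw [hc, inner_smul_left] at hf
  simp [h8, hβ] at hf
  linarith

end Crest.Agent.R120
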