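import Crest.Agent.R120.Constr
import Crest.Agent.R120.Chain

/-! Row 120: all irreducible representations of the final algebra are equivalent. -/

set_option autoImplicit false

namespace Crest.Agent.R120

open Set Filter Topology Crest.OpAlg
open scoped InnerProductSpace

variable {H : Type} [NormedAddCommGroup H] [InnerProductSpace ℂ H] [CompleteSpace H]
  {b : HilbertBasis (Gam Ix) ℂ H}
variable {K : Type} [NormedAddCommGroup K] [InnerProductSpace ℂ K] [CompleteSpace K]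
  {ρ : (H →L[ℂ] H) →⋆ₐ[ℂ] (K →L[ℂ] K)} {v : Ix → H →L[ℂ] H}
variable {H₁ : Type} [NormedAddCommGroup H₁] [InnerProductSpace ℂ H₁] [CompleteSpace H₁]
variable {H₂ : Type} [NormedAddCommGroup H₂] [InnerProductSpace ℂ H₂] [CompleteSpace H₂]

theorem vec_state (hρ : Sat ρ) {C : StarSubalgebra ℂ (H →L[ℂ] H)}
    [IsClosed (C : Set (H →L[ℂ] H))] {p : ℕ → C} (hp : Dec p) {x : C} {c : ℂ}
    (h : c • hat ρ (fun n => (p n : H →L[ℂ] H)) =
      hat ρ (fun n => (p n : H →L[ℂ] H)) * ρ x * hat ρ (fun n => (p n : H →L[ℂ] H)))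
    (π : C →⋆ₙₐ[ℂ] (H₁ →L[ℂ] H₁)) {ζ : H₁} (h1 : ‖ζ‖ = 1) (hζ : ∀ n, π (p n) ζ = ζ) :
    ⟪ζ, π x ζ⟫_ℂ = c := by
  have hd : Dec fun n => (p n : H →L[ℂ] H) := hp.map C.subtype
  have h2 := hρ _ hd ((x : H →L[ℂ] H) - c • 1) (by
    have := (hd.map ρ).plim_proj.isIdempotentElem.eq
    rw [map_sub, map_smul, map_one, mul_sub, sub_mul, ← h, mul_smul_comm, mul_one, smul_mul_assoc,
      hat, this, sub_self])
  rw [← sub_eq_zero, ← norm_le_zero_iff]
  refine ge_of_tendsto' h2 fun n => ?_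
  have h3 : (p n : H →L[ℂ] H) * ((x : H →L[ℂ] H) - c • 1) * p n =
      ((p n * x * p n - c • p n : C) : H →L[ℂ] H) := by
    simp [mul_sub, sub_mul, (hd.proj n).isIdempotentElem.eq]
  have h4 : ⟪ζ, π x ζ⟫_ℂ - c = ⟪ζ, π (p n * x * p n - c • p n) ζ⟫_ℂ := by
    rw [map_sub, map_smul, sub_apply, smul_apply, hζ, inner_sub_right, inner_smul_right,
      inner_self_eq_norm_sq_to_K, h1, map_mul, map_mul, mul_apply_eq_comp, mul_apply_eq_comp, hζ,
      ← proj_inner ((hp.proj n).map π), hζ]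
    simp
  rw [h3, h4]
  refine (norm_inner_le_norm _ _).trans ?_
  have := rep_norm_le π (p n * x * p n - c • p n) ζ
  rw [h1, mul_one] at this
  rw [h1, one_mul]
  exact this

theorem mini_of_exc {B₀ : Set (H →L[ℂ] H)} {S : ℕ → Set Ix} (hS : Monotone S)
    {p : ℕ → AA B₀ v univ} (hp : Dec p)
    (h : ∀ k, ∀ x : AA B₀ v univ, (x : H →L[ℂ] H) ∈ AA B₀ v (S k) → ∀ ε > 0, ∃ n, Exc (p n) x ε) :
    Mini ρ (hat ρ fun n => (p n : H →L[ℂ] H)) (AA B₀ v (⋃ k, S k)) := by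
  have hd : Dec fun n => ρ (p n : H →L[ℂ] H) := (hp.map (AA B₀ v univ).subtype).map ρ
  refine rel_cs (SC_span _) fun x hx => ?_
  obtain ⟨F, hF, hx⟩ := exists_finset_of_mem_adjoin B₀ v hx
  obtain ⟨k, hk⟩ : ∃ k, (F : Set Ix) ⊆ S k :=
    Directed.exists_mem_subset_of_finset_subset_biUnion hS.directed_le hF
  refine (SC_span _).isClosed.closure_subset (Metric.mem_closure_iff.2 fun ε hε => ?_)
  obtain ⟨n, c, hc⟩ := h k ⟨x, AA_mono _ _ (subset_univ _) hx⟩ (AA_mono _ _ hk hx) (ε / 2)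
    (half_pos hε)
  refine ⟨_, Submodule.mem_span_singleton.2 ⟨c, rfl⟩, ?_⟩
  have h1 : hat ρ (fun n => (p n : H →L[ℂ] H)) * ρ x * hat ρ (fun n => (p n : H →L[ℂ] H)) -
      c • hat ρ (fun n => (p n : H →L[ℂ] H)) = hat ρ (fun n => (p n : H →L[ℂ] H)) *
        ρ ((p n : H →L[ℂ] H) * x * p n - c • p n) * hat ρ (fun n => (p n : H →L[ℂ] H)) := by
    simp only [hat, map_sub, map_mul, map_smul, mul_sub, sub_mul, mul_smul_comm, smul_mul_assoc,
      ← mul_assoc, hd.plim_mul, hd.plim_proj.isIdempotentElem.eq]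
    rw [mul_assoc _ (ρ (p n)), hd.mul_plim]
  rw [dist_eq_norm, h1]
  have h2 : ‖ρ ((p n : H →L[ℂ] H) * x * p n - c • p n)‖ ≤ ε / 2 :=
    (NonUnitalStarAlgHom.norm_apply_le ρ _).trans hc
  have h3 : ‖hat ρ (fun n => (p n : H →L[ℂ] H))‖ ≤ 1 := hd.plim_proj.norm_le
  calc _ ≤ _ := norm_mul₃_le
    _ ≤ 1 * (ε / 2) * 1 := by gcongr
    _ < ε := by linarith

theorem Rec.equiv (hv : Rec b ρ v) (hρ : Sat ρ)
    {π₁ : AA (base b) v univ →⋆ₙₐ[ℂ] (H₁ →L[ℂ] H₁)} {π₂ : AA (base b) v univ →⋆ₙₐ[ℂ] (H₂ →L[ℂ] H₂)}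
    (h₁ : IsIrreducibleRep π₁) (h₂ : IsIrreducibleRep π₂) : AreUnitarilyEquivalent π₁ π₂ := by
  obtain ⟨S, P, P', a, ξ, ξ', hS0, hS, hm, hP, hP', ha, ha', ht, ht', hξ, hξ', hf, hf', hex⟩ :=
    exists_peaks hv.rich h₁ h₂ (𝒮 := {S : Set Ix // S.Countable ∧ Cl dep S})
      (fun S => {x | (x : H →L[ℂ] H) ∈ AA (base b) v S})
      (fun S => IsEmbedding.subtypeVal.isSeparable_preimage
        (isSeparable_cs ((countable_range _).union (S.2.1.image _))))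
      ⟨{.leaf}, countable_singleton _, by rintro _ rfl; exact empty_subset _⟩
      (fun S x y z => by
        obtain ⟨T₁, c1, -, h1, hx⟩ := exists_cl_AA _ v S.2.1 x.2
        obtain ⟨T₂, c2, -, h2, hy⟩ := exists_cl_AA _ v c1 y.2
        obtain ⟨T₃, h4, h5, h3, hz⟩ := exists_cl_AA _ v c2 z.2
        exact ⟨⟨T₃, h4, h5⟩, h1.trans (h2.trans h3), AA_mono _ _ (h2.trans h3) hx,
          AA_mono _ _ h3 hy, hz⟩)
  obtain ⟨T, hT⟩ : ∃ T, T = ⋃ k, (S k).1 := ⟨_, rfl⟩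
  have hTc : T.Countable := hT ▸ countable_iUnion fun k => (S k).2.1
  have hsub : ∀ k, (S k).1 ⊆ T := fun k => hT ▸ subset_iUnion (fun k => (S k).1) k
  have hTcl : Cl dep T := fun γ hγ => by
    obtain ⟨k, hk⟩ := mem_iUnion.1 (hT ▸ hγ)
    exact ((S k).2.2 γ hk).trans (hsub k)
  have m1 : ∀ n, (P n : H →L[ℂ] H) ∈ AA (base b) v T := fun n => AA_mono _ _ (hsub n) (hm n).1
  have m2 : ∀ n, (P' n : H →L[ℂ] H) ∈ AA (base b) v T := fun n => AA_mono _ _ (hsub n) (hm n).2.1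
  have m3 : ∀ n, (a n : H →L[ℂ] H) ∈ AA (base b) v T := fun n => AA_mono _ _ (hsub n) (hm n).2.2
  have d1 : Dec fun n => (P n : H →L[ℂ] H) := hP.map (AA (base b) v univ).subtype
  have d2 : Dec fun n => (P' n : H →L[ℂ] H) := hP'.map (AA (base b) v univ).subtype
  obtain ⟨u, huM, hu, hu'⟩ := exists_unitary b (a := fun n => (a n : H →L[ℂ] H)) d1.proj d2.proj
    (fun n => ⟨hv.le_MM hTcl (m1 n), hv.le_MM hTcl (m2 n), hv.le_MM hTcl (m3 n)⟩)
    (fun n => ⟨congrArg Subtype.val (ha n).1, congrArg Subtype.val (ha n).2⟩)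
    (fun n m h => ⟨congrArg Subtype.val (ha' n m h).1, congrArg Subtype.val (ha' n m h).2⟩) ht ht'
  have hval : Valid b ρ (AA (base b) v T)
      (fun n => (P n : H →L[ℂ] H), fun n => (P' n : H →L[ℂ] H), u) :=
    ⟨d1, d2, m1, m2, fun n => (hu' n).1 ▸ m3 n, ht, ht', hu, fun n => (hu' n).2,
      hT ▸ mini_of_exc (fun _ _ h => hS h) hP fun k x hx ε hε => (hex k x hx ε hε).imp fun _ h => h.1,
      hT ▸ mini_of_exc (fun _ _ h => hS h) hP' fun k x hx ε hε =>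
        (hex k x hx ε hε).imp fun _ h => h.2⟩
  have M1 := hv.sys.ue hTcl (hv.pk d1 m1 ht) hval.mini
  have M2 := hv.sys.ue hTcl (hv.pk d2 m2 ht') hval.mini'
  obtain ⟨γ, hγ, hγ'⟩ := exists_task b hTc ⟨_, hsub 0 (hS0 rfl)⟩
    (d := (fun n => (P n : H →L[ℂ] H), fun n => (P' n : H →L[ℂ] H), u))
    ⟨fun n => hv.le_MM hTcl (m1 n), fun n => hv.le_MM hTcl (m2 n), huM⟩
  obtain ⟨η, hη0, hη⟩ : ∃ η : H₁, η ≠ 0 ∧ ∀ n, π₁ (P' n) η = η := by
    by_cases hact : Act b ρ v γ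
    · have h1 := (hv γ).1 hact
      rw [hγ'] at h1
      replace h1 : v γ = u := h1
      let U : AA (base b) v univ := ⟨u, h1 ▸ mem_AA _ _ (mem_univ γ)⟩
      refine ⟨π₁ U ξ, fun h => ?_, fun n => ?_⟩
      · have h2 := rep_norm_eq π₁ (a := U) (c := 1) (Subtype.ext (by simpa using hu.1)) ξ
        rw [h, irr_one h₁, one_apply_eq_self, hξ] at h2
        simp at h2
      · have h2 : U * P n = P' n * U := Subtype.ext (hu' n).2
        rw [← mul_apply_eq_comp, ← map_mul, ← h2, map_mul, mul_apply_eq_comp, hf]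
    · rw [Act, hγ, hγ'] at hact
      simp only [hTcl, hval, true_and, Rel, not_forall, Submodule.mem_bot] at hact
      obtain ⟨x, hx, hx0⟩ := hact
      let X : AA (base b) v univ := ⟨x, AA_mono _ _ (subset_univ _) hx⟩
      have d3 := hP'.map π₁
      refine ⟨plim (fun n => π₁ (P' n)) (π₁ (star X) ξ), fun h => hx0 ?_, fun n => by
        rw [← mul_apply_eq_comp, d3.mul_plim]⟩
      have h1 := (d3.tendsto (π₁ (star X) ξ)).norm
      rw [h, norm_zero] at h1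
      rw [← norm_le_zero_iff]
      refine ge_of_tendsto' h1 fun k => ?_
      obtain ⟨c, hc⟩ := Submodule.mem_span_singleton.1
        (M1 _ (star (P' k * star X) * (P' k * star X)).2)
      have h2 := vec_state hρ hP hc π₁ hξ hf
      rw [map_mul, mul_apply_eq_comp, ← rep_inner, inner_self_eq_norm_sq_to_K, map_mul,
        mul_apply_eq_comp] at h2
      have r1 := (d1.map ρ).plim_proj
      have r2 := (d2.map ρ).plim_proj
      have h3 : ‖ρ (P' k * star x) * hat ρ fun n => (P n : H →L[ℂ] H)‖ ≤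
          ‖π₁ (P' k) (π₁ (star X) ξ)‖ := by
        refine le_of_sq_le_sq ?_ (norm_nonneg _)
        rw [sq, ← CStarRing.norm_star_mul_self, star_mul, hat, r1.isSelfAdjoint.star_eq, mul_assoc,
          ← mul_assoc (star _), ← map_star, ← map_mul, ← mul_assoc]
        refine (congrArg norm hc).symm.le.trans ?_
        rw [norm_smul, ← h2]
        simpa [hat] using mul_le_of_le_one_right (sq_nonneg _) r1.norm_le
      refine le_trans ?_ h3
      rw [← norm_star, star_mul, star_mul, hat, hat, r1.isSelfAdjoint.star_eq,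
        r2.isSelfAdjoint.star_eq, ← (d2.map ρ).plim_mul k, ← map_star, map_mul, mul_assoc,
        mul_assoc]
      exact (norm_mul_le _ _).trans (mul_le_of_le_one_left (norm_nonneg _) r2.norm_le)
  have hn : ‖(‖η‖ : ℂ)⁻¹ • η‖ = 1 := by rw [norm_smul]; simp [hη0]
  obtain ⟨U, hU, -⟩ := irr_unitary h₁ h₂ (ξ := (‖η‖ : ℂ)⁻¹ • η) (η := ξ')
    (by rintro h; simp [h] at hn) fun y => by
      obtain ⟨c, hc⟩ := Submodule.mem_span_singleton.1 (M2 _ (star y * y).2)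
      refine (pow_left_inj₀ (norm_nonneg _) (norm_nonneg _) two_ne_zero).1 ?_
      rw [rep_norm_sq, rep_norm_sq, vec_state hρ hP' hc π₂ hξ' hf',
        vec_state hρ hP' hc π₁ hn fun n => by rw [map_smul, hη]]
  exact ⟨U, hU⟩

theorem naimark {H : Type} [NormedAddCommGroup H] [InnerProductSpace ℂ H] [CompleteSpace H]
    (b : HilbertBasis (Gam Ix) ℂ H) :
    ∃ (A : Type) (_ : CStarAlgebra A),
      ¬ FiniteDimensional ℂ A ∧
      (∀ I : TwoSidedIdeal A, IsClosed (I : Set A) → I = ⊥ ∨ I = ⊤) ∧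
      (∃ τ : A →ₗ[ℂ] ℂ, Crest.OpAlg.IsFaithfulTracialState τ) ∧
      ∀ (H₁ : Type) [NormedAddCommGroup H₁] [InnerProductSpace ℂ H₁] [CompleteSpace H₁]
        (H₂ : Type) [NormedAddCommGroup H₂] [InnerProductSpace ℂ H₂] [CompleteSpace H₂]
        (π₁ : A →⋆ₙₐ[ℂ] (H₁ →L[ℂ] H₁)) (π₂ : A →⋆ₙₐ[ℂ] (H₂ →L[ℂ] H₂)),
        Crest.OpAlg.IsIrreducibleRep π₁ → Crest.OpAlg.IsIrreducibleRep π₂ →
          Crest.OpAlg.AreUnitarilyEquivalent π₁ π₂ := by
  obtain ⟨K, _, _, _, ρ, hρ⟩ := exists_sat (b 1) (b.orthonormal.1 1)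
  obtain ⟨v, hv⟩ := exists_Rec b ρ
  exact ⟨AA (base b) v univ, inferInstance, not_finiteDimensional, fun I _ => hv.rich.simple I,
    ⟨_, hv.rich.tr⟩, fun _ _ _ _ _ _ _ _ _ _ h₁ h₂ => hv.equiv (sat_of hρ) h₁ h₂⟩

end Crest.Agent.R120
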