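import Mathlib

/-! Row 120: the free product group with ping-pong sets. -/

set_option autoImplicit false

namespace Crest.Agent.R120

open Monoid Monoid.CoprodI

/-- The factor group. -/
abbrev G0 : Type := ℕ → ℤˣ

/-- The free product of copies of `G0`. -/
abbrev Gam (I : Type) : Type := Monoid.CoprodI (fun _ : Option I => G0)

variable {I : Type}

/-- inclusion of a factor -/
def ofi (i : Option I) : G0 →* Gam I := Monoid.CoprodI.of (M := fun _ : Option I => G0) (i := i)

/-- The subgroup generated by the base factor and the factors in `T`. -/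
def sub (T : Set I) : Subgroup (Gam I) :=
  Subgroup.closure {x | ∃ i : Option I, (∀ j, i = some j → j ∈ T) ∧ ∃ m : G0, x = ofi i m}

/-- the free involution -/
def gen (γ : I) : Gam I := ofi (some γ) (fun _ => -1)

/-- the base involutions -/
def cc (I : Type) (k : ℕ) : Gam I := ofi none (Pi.mulSingle k (-1))

theorem sub_mono {S T : Set I} (h : S ⊆ T) : sub S ≤ sub T := by
  apply Subgroup.closure_mono
  rintro x ⟨i, hi, m, rfl⟩
  exact ⟨i, fun j hj => h (hi j hj), m, rfl⟩

theorem gen_mem {T : Set I} {γ : I} (h : γ ∈ T) : gen γ ∈ sub T :=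
  Subgroup.subset_closure ⟨some γ, fun j hj => (by cases hj; exact h), _, rfl⟩

theorem cc_mem (T : Set I) (k : ℕ) : cc I k ∈ sub T :=
  Subgroup.subset_closure ⟨none, fun j hj => (by cases hj), _, rfl⟩

theorem gen_mul_self (γ : I) : gen γ * gen γ = 1 := by
  rw [gen, ← map_mul]
  have : ((fun _ => -1 : G0) * fun _ => -1) = 1 := by ext; simp
  rw [this, map_one]

theorem cc_mul_self (k : ℕ) : cc I k * cc I k = 1 := by
  rw [cc, ← map_mul, ← Pi.mulSingle_mul]
  simp

theorem cc_comm (j k : ℕ) : cc I j * cc I k = cc I k * cc I j := by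
  rw [cc, cc, ← map_mul, ← map_mul, mul_comm]

theorem cc_notMem (k : ℕ) : cc I k ∉ Subgroup.closure {x | ∃ j < k, x = cc I j} := by
  intro h
  have hle : Subgroup.closure {x | ∃ j < k, x = cc I j} ≤
      Subgroup.map (ofi (I := I) none) (Pi.evalMonoidHom (fun _ : ℕ => ℤˣ) k).ker := by
    rw [Subgroup.closure_le]
    rintro x ⟨j, hj, rfl⟩
    refine ⟨Pi.mulSingle j (-1), ?_, rfl⟩
    simp [Pi.mulSingle_eq_of_ne hj.ne']
  obtain ⟨y, hy, hyy⟩ := hle h
  have := Monoid.CoprodI.of_injective (M := fun _ : Option I => G0) none hyy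
  subst this
  simp at hy

theorem cc_injective : Function.Injective (cc I) := by
  intro j k h
  have := Monoid.CoprodI.of_injective (M := fun _ : Option I => G0) none h
  by_contra hne
  have h2 := congrFun this j
  simp [Pi.mulSingle_eq_of_ne hne] at h2

open Classical in
/-- the ping-pong set -/
def Om (γ : I) : Set (Gam I) :=
  {w | ∀ j, (w • (Word.empty : Word (fun _ : Option I => G0))).fstIdx = some j → j = some γ}

theorem gen_mul_mem_Om {γ : I} {w : Gam I} (hw : w ∉ Om γ) : gen γ * w ∈ Om γ := by
  classical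
  simp only [Om, Set.mem_ofPred_eq, not_forall] at hw ⊢
  obtain ⟨j, hj, hne⟩ := hw
  intro k hk
  rw [mul_smul] at hk
  have h1 : (fun _ => -1 : G0) ≠ 1 := by
    intro h; have := congrFun h 0; simp at this
  have h2 : (w • (Word.empty : Word (fun _ : Option I => G0))).fstIdx ≠ some (some γ) := by
    rw [hj]; intro h; exact hne (Option.some.inj h)
  have := Word.cons_eq_smul (M := fun _ : Option I => G0) (i := some γ) (m := fun _ => -1)
    (h1 := h2) (h2 := h1)
  change (Monoid.CoprodI.of (M := fun _ : Option I => G0) (i := some γ) (fun _ => -1) •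
    _ : Word (fun _ : Option I => G0)).fstIdx = _ at hk
  rw [← this, Word.fstIdx_cons] at hk
  exact (Option.some.inj hk).symm

open Classical in
theorem prod_smul_toList (γ : I) (W : Word (fun _ : Option I => G0))
    (hW : ∀ j, W.fstIdx = some j → j = some γ) (V : Word (fun _ : Option I => G0))
    (hV : ∀ m, ⟨some γ, m⟩ ∉ V.toList) : (V.prod • W).toList = V.toList ++ W.toList := by
  induction V using Word.consRecOn with
  | empty => rw [Word.prod_empty, one_smul]; rfl
  | cons i m V h1 h2 ih =>
    have hV' : ∀ m, ⟨some γ, m⟩ ∉ V.toList := fun m' hm => hV m' (by simp [hm])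
    have hi : i ≠ some γ := by
      rintro rfl; exact hV m (by simp)
    have ih := ih hV'
    have h3 : (V.prod • W).fstIdx ≠ some i := by
      rw [Word.fstIdx, ih]
      cases hl : V.toList with
      | nil => intro h; exact hi (hW i h)
      | cons a l =>
        rw [Word.fstIdx, hl] at h1
        simpa using h1
    rw [Word.prod_cons, mul_smul, ← Word.cons_eq_smul (h1 := h3) (h2 := h2)]
    simp [ih]

theorem eq_one_of_mem_Om {γ : I} {T : Set I} (hT : γ ∉ T) {h w : Gam I} (hh : h ∈ sub T)
    (hw : w ∈ Om γ) (hhw : h * w ∈ Om γ) : h = 1 := by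
  classical
  have key : ∀ (W : Word (fun _ : Option I => G0)) (m : G0),
      (⟨some γ, m⟩ : Σ _ : Option I, G0) ∈ (h • W).toList ↔ ⟨some γ, m⟩ ∈ W.toList := by
    clear hhw
    induction hh using Subgroup.closure_induction with
    | mem x hx =>
      obtain ⟨i, hi, m', rfl⟩ := hx
      intro W m
      exact Word.mem_smul_iff_of_ne (M := fun _ : Option I => G0)
        (by rintro rfl; exact hT (hi γ rfl))
    | one => simp
    | mul x y _ _ hx hy => intro W m; rw [mul_smul, hx, hy]
    | inv x _ hx => intro W m; rw [← hx, smul_inv_smul]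
  clear hh
  set V : Word (fun _ : Option I => G0) := h • Word.empty with hV
  have hVp : V.prod = h := by rw [hV, Word.prod_smul]; simp
  have hV' : ∀ m, ⟨some γ, m⟩ ∉ V.toList := fun m => by
    rw [hV, key]; simp [Word.empty]
  have h1 := prod_smul_toList γ _ hw V hV'
  rw [hVp, ← mul_smul] at h1
  cases hl : V.toList with
  | nil => rw [← hVp, Word.prod, hl]; rfl
  | cons a l =>
    exfalso
    have := hhw a.1 (by rw [Word.fstIdx, h1, hl]; rfl)
    obtain ⟨i, m⟩ := a
    cases this
    exact hV' m (by rw [hl]; simp)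

/-- coding map -/
noncomputable def cmap (s : ℕ → I) : Gam ℕ →* Gam I :=
  Monoid.CoprodI.lift (M := fun _ : Option ℕ => G0) (fun i => ofi (i.map s))

theorem sub_le_range (s : ℕ → I) : sub (Set.range s) ≤ (cmap s).range := by
  rw [sub, Subgroup.closure_le]
  rintro x ⟨i, hi, m, rfl⟩
  cases i with
  | none => exact ⟨ofi none m, by simp [cmap, ofi]⟩
  | some j =>
    obtain ⟨n, rfl⟩ := hi j rfl
    exact ⟨ofi (some n) m, by simp [cmap, ofi]⟩

end Crest.Agent.R120
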