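import Crest.Agent.R120.Steps

/-! Row 120: the two-level transfinite induction (unique extension of peaks). -/

set_option autoImplicit false

namespace Crest.Agent.R120

open Set

variable {B : Type} [CStarAlgebra B]
variable {K : Type} [NormedAddCommGroup K] [InnerProductSpace ℂ K] [CompleteSpace K]
variable {I : Type}

/-- the algebra generated by the base and the generators in `T` -/
noncomputable def AA (B₀ : Set B) (v : I → B) (T : Set I) : StarSubalgebra ℂ B :=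
  cs (B₀ ∪ v '' T)

theorem AA_mono (B₀ : Set B) (v : I → B) {S T : Set I} (h : S ⊆ T) : AA B₀ v S ≤ AA B₀ v T :=
  cs_mono (union_subset_union_right _ (image_mono h))

theorem mem_AA (B₀ : Set B) (v : I → B) {T : Set I} {γ : I} (h : γ ∈ T) : v γ ∈ AA B₀ v T :=
  subset_cs _ (Or.inr ⟨γ, h, rfl⟩)

theorem AA_insert (B₀ : Set B) (v : I → B) (T : Set I) (γ : I) :
    AA B₀ v (insert γ T) ≤ cs (insert (v γ) (AA B₀ v T : Set B)) := by
  apply cs_mono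
  rintro x (hx | ⟨β, rfl | hβ, rfl⟩)
  · exact Or.inr (subset_cs _ (Or.inl hx))
  · exact Or.inl rfl
  · exact Or.inr (mem_AA _ _ hβ)

theorem exists_finset_of_mem_adjoin (B₀ : Set B) (v : I → B) {T : Set I} {x : B}
    (hx : x ∈ StarAlgebra.adjoin ℂ (B₀ ∪ v '' T)) :
    ∃ F : Finset I, (F : Set I) ⊆ T ∧ x ∈ AA B₀ v F := by
  classical
  induction hx using StarAlgebra.adjoin_induction with
  | mem g hg =>
    rcases hg with hg | ⟨γ, hγ, rfl⟩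
    · exact ⟨∅, by simp, subset_cs _ (Or.inl hg)⟩
    · exact ⟨{γ}, by simpa using hγ, mem_AA _ _ (by simp)⟩
  | algebraMap c => exact ⟨∅, by simp, algebraMap_mem _ _⟩
  | add a b _ _ ha hb =>
    obtain ⟨F, hF, ha⟩ := ha
    obtain ⟨G, hG, hb⟩ := hb
    exact ⟨F ∪ G, by simp [hF, hG],
      add_mem (AA_mono _ _ (by simp) ha) (AA_mono _ _ (by simp) hb)⟩
  | mul a b _ _ ha hb =>
    obtain ⟨F, hF, ha⟩ := ha
    obtain ⟨G, hG, hb⟩ := hb
    exact ⟨F ∪ G, by simp [hF, hG],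
      mul_mem (AA_mono _ _ (by simp) ha) (AA_mono _ _ (by simp) hb)⟩
  | star a _ ha =>
    obtain ⟨F, hF, ha⟩ := ha
    exact ⟨F, hF, star_mem ha⟩

/-- closed sets of indices -/
def Cl (dep : I → Set I) (T : Set I) : Prop := ∀ γ ∈ T, dep γ ⊆ T

variable [LinearOrder I] [WellFoundedLT I]

theorem chain {ρ : B →⋆ₐ[ℂ] (K →L[ℂ] K)} {B₀ : Set B} {v : I → B} {r s : K →L[ℂ] K}
    {V : Submodule ℂ (K →L[ℂ] K)} (hV : SC V) {T₀ W : Set I} (h0 : Rel ρ r s (AA B₀ v T₀) V)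
    (hs : ∀ η ∈ W, η ∉ T₀ → Rel ρ r s (AA B₀ v (T₀ ∪ (W ∩ Iio η))) V →
      Rel ρ r s (AA B₀ v (insert η (T₀ ∪ (W ∩ Iio η)))) V) : Rel ρ r s (AA B₀ v (T₀ ∪ W)) V := by
  classical
  have key : ∀ L : Set I, (∀ β ∈ L, Rel ρ r s (AA B₀ v (T₀ ∪ (W ∩ Iio β))) V) →
      Rel ρ r s (AA B₀ v (T₀ ∪ (W ∩ L))) V := by
    intro L hL
    refine rel_cs hV fun x hx => ?_
    obtain ⟨F, hF, hx⟩ := exists_finset_of_mem_adjoin B₀ v hx
    rcases (F.filter (· ∉ T₀)).eq_empty_or_nonempty with h | h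
    · refine h0 x (AA_mono _ _ (fun β hβ => ?_) hx)
      by_contra hc
      exact Finset.notMem_empty β (h ▸ Finset.mem_filter.2 ⟨hβ, hc⟩)
    · obtain ⟨hβ, hβ'⟩ := Finset.mem_filter.1 (Finset.max'_mem _ h)
      obtain ⟨h1, h2⟩ := (hF hβ).resolve_left hβ'
      refine hs _ h1 hβ' (hL _ h2) x (AA_mono _ _ (fun η hη => ?_) hx)
      by_cases h3 : η ∈ T₀
      · exact Or.inr (Or.inl h3)
      · rcases (Finset.le_max' (F.filter (· ∉ T₀)) η (Finset.mem_filter.2 ⟨hη, h3⟩)).eq_or_lt with h4 | h4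
        · exact Or.inl h4
        · exact Or.inr (Or.inr ⟨((hF hη).resolve_left h3).1, h4⟩)
  have h1 : ∀ η, Rel ρ r s (AA B₀ v (T₀ ∪ (W ∩ Iio η))) V := fun η => by
    induction η using WellFoundedLT.induction with
    | ind η ih => exact key _ ih
  simpa using key univ fun β _ => h1 β

variable (ρ : B →⋆ₐ[ℂ] (K →L[ℂ] K)) (B₀ : Set B) (v : I → B) (dep : I → Set I)
  (Q : I → K →L[ℂ] K)

/-- peak projections over `T` -/
structure Pk (r : K →L[ℂ] K) (T : Set I) : Prop where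
  proj : IsStarProjection r
  mem : r ∈ SL ρ (AA B₀ v T)
  sing : ∀ T', T ⊆ T' → Cl dep T' → ∀ γ ∉ T', Orth ρ r (Q γ) (AA B₀ v T')

/-- gluing data -/
structure GD (γ : I) (p p' : K →L[ℂ] K) : Prop where
  cl : Cl dep (dep γ)
  pk : Pk ρ B₀ v dep Q p (dep γ)
  pk' : Pk ρ B₀ v dep Q p' (dep γ)
  uni : v γ ∈ unitary B
  int : ρ (v γ) * p = p' * ρ (v γ)
  mem : ρ (v γ) * (1 - p) ∈ SL ρ (AA B₀ v (dep γ))
  mini : Mini ρ p (AA B₀ v (dep γ))
  mini' : Mini ρ p' (AA B₀ v (dep γ))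
  orth : Orth ρ p p' (AA B₀ v (Iio γ))

/-- the system of generators -/
structure Sys : Prop where
  dep_lt : ∀ γ, dep γ ⊆ Iio γ
  proj : ∀ γ, IsStarProjection (Q γ)
  comp : ∀ T, Cl dep T → ∀ γ ∉ T, ∀ x ∈ AA B₀ v T, ∃ c : ℂ, Q γ * ρ x * Q γ = c • Q γ
  gen : ∀ γ, (star (v γ) = v γ ∧ v γ * v γ = 1 ∧ (1 - Q γ) * ρ (v γ) * (1 - Q γ) = 0) ∨
    ∃ p p', GD ρ B₀ v dep Q γ p p'

variable {ρ B₀ v dep Q}

omit [LinearOrder I] [WellFoundedLT I] in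
theorem Pk.mono {r : K →L[ℂ] K} {S T : Set I} (h : Pk ρ B₀ v dep Q r S) (hST : S ⊆ T) :
    Pk ρ B₀ v dep Q r T :=
  ⟨h.proj, SL_mono ρ (AA_mono _ _ hST) h.mem, fun T' hT' => h.sing T' (hST.trans hT')⟩

omit [WellFoundedLT I] in
theorem Sys.step (h : Sys ρ B₀ v dep Q) {r s : K →L[ℂ] K} {V : Submodule ℂ (K →L[ℂ] K)}
    (hV : SC V) {T : Set I} (hT : Cl dep T) {η : I} (hη : η ∉ T) (hd : dep η ⊆ T)
    (hr : Pk ρ B₀ v dep Q r T) (hs : Pk ρ B₀ v dep Q s T)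
    (hg : ∀ p p', GD ρ B₀ v dep Q η p p' → Mini ρ p (AA B₀ v T) ∧ Mini ρ p' (AA B₀ v T) ∧
      Orth ρ p p' (AA B₀ v T) ∧ (Orth ρ r p' (AA B₀ v T) ∨ Orth ρ p s (AA B₀ v T)) ∧
      (Orth ρ r p (AA B₀ v T) ∨ Orth ρ p' s (AA B₀ v T)))
    (h0 : Rel ρ r s (AA B₀ v T) V) : Rel ρ r s (AA B₀ v (insert η T)) V := by
  refine Rel.mono ?_ (AA_insert B₀ v T η)
  rcases h.gen η with ⟨h1, h2, h3⟩ | ⟨p, p', hp⟩
  · exact free_step hV (h.proj η) h1 h2 h3 (h.comp T hT η hη) (hr.sing T subset_rfl hT η hη)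
      ((hs.sing T subset_rfl hT η hη).symm hs.proj (h.proj η)) h0
  · obtain ⟨h1, h2, h3, h4, h5⟩ := hg p p' hp
    exact glue_step hV (hp.pk.mono hd).mem (hp.pk'.mono hd).mem hp.pk.proj hp.pk'.proj hp.uni
      hp.int (SL_mono ρ (AA_mono _ _ hd) hp.mem) h1 h2 h3 h4 h5 h0

omit [WellFoundedLT I] in
theorem Sys.step_mini (h : Sys ρ B₀ v dep Q) {r : K →L[ℂ] K}
    {T : Set I} (hT : Cl dep T) {η : I} (hη : η ∉ T) (hd : dep η ⊆ T) (hr : Pk ρ B₀ v dep Q r T)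
    (hg : ∀ p p', GD ρ B₀ v dep Q η p p' → Mini ρ p (AA B₀ v T) ∧ Mini ρ p' (AA B₀ v T) ∧
      Orth ρ p p' (AA B₀ v T))
    (h0 : Mini ρ r (AA B₀ v T)) : Mini ρ r (AA B₀ v (insert η T)) := by
  refine h.step (SC_span r) hT hη hd hr hr (fun p p' hp => ?_) h0
  obtain ⟨h1, h2, h3⟩ := hg p p' hp
  exact ⟨h1, h2, h3, (orth_trans (hp.pk.mono hd).mem hr.mem hr.proj h0 h3).symm,
    (orth_trans (hp.pk'.mono hd).mem hr.mem hr.proj h0 (h3.symm hp.pk.proj hp.pk'.proj)).symm⟩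

omit [WellFoundedLT I] in
theorem GD.orth_of {β : I} {p p' t : K →L[ℂ] K} (hp : GD ρ B₀ v dep Q β p p')
    {C : StarSubalgebra ℂ B} (hC : v β ∈ C) (h : Orth ρ p' t C) : Orth ρ p t C := by
  intro x hx
  have h1 : p' * ρ (v β * x) * t = 0 := h _ (mul_mem hC hx)
  have u1 : star (ρ (v β)) * ρ (v β) = 1 := by rw [← map_star, ← map_mul, hp.uni.1, map_one]
  rw [map_mul, ← mul_assoc, ← hp.int] at h1
  have h2 := congrArg (star (ρ (v β)) * ·) h1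
  simpa only [← mul_assoc, u1, one_mul, mul_zero, Submodule.mem_bot] using h2

theorem Sys.ue_lower (h : Sys ρ B₀ v dep Q) {W : Set I} (hW : IsLowerSet W)
    (ih : ∀ η ∈ W, ∀ S r, Cl dep S → S ⊆ Iio η → Pk ρ B₀ v dep Q r S → Mini ρ r (AA B₀ v S) →
      Mini ρ r (AA B₀ v (Iio η)))
    (S : Set I) (r : K →L[ℂ] K) (hS : Cl dep S) (hSW : S ⊆ W) (hr : Pk ρ B₀ v dep Q r S)
    (hm : Mini ρ r (AA B₀ v S)) : Mini ρ r (AA B₀ v W) := by
  refine Rel.mono (chain (SC_span r) hm fun β hβW hβS h0 => ?_) (AA_mono _ _ subset_union_right)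
  have e1 : S ∪ (W ∩ Iio β) = Iio β ∪ S := by
    rw [union_comm, inter_eq_right.2 (show Iio β ⊆ W from fun η hη => hW (le_of_lt hη) hβW)]
  have cI : ∀ η, Cl dep (Iio η) := fun η γ hγ => (h.dep_lt γ).trans (Iio_subset_Iio (le_of_lt hγ))
  rw [e1] at h0 ⊢
  -- facts on the inner chain
  have f1 : ∀ η, Cl dep (Iio β ∪ (S ∩ Iio η)) := by
    rintro η γ (hγ | hγ)
    · exact (cI β γ hγ).trans subset_union_left
    · exact (subset_inter (hS γ hγ.1) (cI η γ hγ.2)).trans subset_union_right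
  have f2 : ∀ η ∈ S, η ∉ Iio β → β < η := fun η hη hη' =>
    lt_of_le_of_ne (not_lt.1 hη') (by rintro rfl; exact hβS hη)
  have f3 : ∀ η ∈ S, η ∉ Iio β → Iio β ∪ (S ∩ Iio η) ⊆ Iio η := fun η hη hη' =>
    union_subset (Iio_subset_Iio (f2 η hη hη').le) inter_subset_right
  have f4 : ∀ η ∈ S, η ∉ Iio β → η ∉ Iio β ∪ (S ∩ Iio η) := fun η hη hη' h1 =>
    lt_irrefl η (f3 η hη hη' h1)
  have f5 : ∀ η ∈ S, dep η ⊆ Iio β ∪ (S ∩ Iio η) := fun η hη =>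
    (subset_inter (hS η hη) (h.dep_lt η)).trans subset_union_right
  have f6 : ∀ η ∈ S, η ∉ Iio β → ∀ R R', GD ρ B₀ v dep Q η R R' →
      Mini ρ R (AA B₀ v (Iio β ∪ (S ∩ Iio η))) ∧ Mini ρ R' (AA B₀ v (Iio β ∪ (S ∩ Iio η))) ∧
      Orth ρ R R' (AA B₀ v (Iio β ∪ (S ∩ Iio η))) := fun η hη hη' R R' hR =>
    ⟨(ih η (hSW hη) _ R hR.cl (h.dep_lt η) hR.pk hR.mini).mono (AA_mono _ _ (f3 η hη hη')),
      (ih η (hSW hη) _ R' hR.cl (h.dep_lt η) hR.pk' hR.mini').mono (AA_mono _ _ (f3 η hη hη')),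
      hR.orth.mono (AA_mono _ _ (f3 η hη hη'))⟩
  refine h.step_mini (fun γ hγ => ?_) (fun h1 => ?_) ((h.dep_lt β).trans subset_union_left)
    (hr.mono subset_union_right) (fun p p' hp => ?_) h0
  · rcases hγ with hγ | hγ
    · exact (cI β γ hγ).trans subset_union_left
    · exact (hS γ hγ).trans subset_union_right
  · exact h1.elim (lt_irrefl β) hβS
  have g1 : ∀ t, Pk ρ B₀ v dep Q t (dep β) → Mini ρ t (AA B₀ v (dep β)) →
      Mini ρ t (AA B₀ v (Iio β ∪ S)) := fun t ht ht' =>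
    chain (SC_span t) (ih β hβW _ t hp.cl (h.dep_lt β) ht ht') fun η hη hη' h1 =>
      h.step_mini (f1 η) (f4 η hη hη') (f5 η hη)
        (ht.mono ((h.dep_lt β).trans subset_union_left)) (f6 η hη hη') h1
  refine ⟨g1 p hp.pk hp.mini, g1 p' hp.pk' hp.mini', chain SC_bot hp.orth fun η hη hη' h1 => ?_⟩
  refine h.step SC_bot (f1 η) (f4 η hη hη') (f5 η hη)
    (hp.pk.mono ((h.dep_lt β).trans subset_union_left))
    (hp.pk'.mono ((h.dep_lt β).trans subset_union_left)) (fun R R' hR => ?_) h1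
  obtain ⟨g2, g3, g4⟩ := f6 η hη hη' R R' hR
  have g5 : dep β ⊆ Iio η := (h.dep_lt β).trans (Iio_subset_Iio (f2 η hη hη').le)
  have g6 := ih η (hSW hη) _ p' hp.cl g5 hp.pk' hp.mini'
  have g7 := mem_AA B₀ v (T := Iio η) (f2 η hη hη')
  have g8 := AA_mono B₀ v (f3 η hη hη')
  refine ⟨g2, g3, g4, ?_, ?_⟩
  · rcases orth_trans (hR.pk.mono (h.dep_lt η)).mem (hp.pk'.mono g5).mem hp.pk'.proj g6 hR.orth
      with h2 | h2
    · exact Or.inr (h2.mono g8)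
    · exact Or.inl ((hp.orth_of g7 h2).mono g8)
  · rcases orth_trans (hR.pk'.mono (h.dep_lt η)).mem (hp.pk'.mono g5).mem hp.pk'.proj g6
      (hR.orth.symm hR.pk.proj hR.pk'.proj) with h2 | h2
    · exact Or.inr (h2.mono g8)
    · exact Or.inl ((hp.orth_of g7 h2).mono g8)

theorem Sys.ue (h : Sys ρ B₀ v dep Q) {S : Set I} {r : K →L[ℂ] K} (hS : Cl dep S)
    (hr : Pk ρ B₀ v dep Q r S) (hm : Mini ρ r (AA B₀ v S)) : Mini ρ r (AA B₀ v univ) := by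
  have h1 : ∀ η, ∀ S r, Cl dep S → S ⊆ Iio η → Pk ρ B₀ v dep Q r S → Mini ρ r (AA B₀ v S) →
      Mini ρ r (AA B₀ v (Iio η)) := fun η => by
    induction η using WellFoundedLT.induction with
    | ind η ih => exact h.ue_lower (isLowerSet_Iio η) ih
  exact h.ue_lower isLowerSet_univ (fun η _ => h1 η) S r hS (subset_univ _) hr hm

end Crest.Agent.R120
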