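import Crest.Prelude.Def_CStarRep

/-! Row 120: comparison of projections in "rich" tracial C⋆-algebras. -/

set_option autoImplicit false

namespace Crest.Agent.R120

open Crest.OpAlg

variable {A : Type} [CStarAlgebra A]

theorem pi_right {w e : A} (he : IsStarProjection e) (h : star w * w = e) : w * e = w := by
  have : star (w * e - w) * (w * e - w) = 0 := by
    have h1 : star (w * e - w) * (w * e - w) =
        e * (star w * w) * e - e * (star w * w) - (star w * w) * e + star w * w := by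
      rw [star_sub, star_mul, he.isSelfAdjoint.star_eq]; noncomm_ring
    rw [h1, h]; simp [he.isIdempotentElem.eq]
  rwa [CStarRing.star_mul_self_eq_zero_iff, sub_eq_zero] at this

theorem pi_left {w e : A} (he : IsStarProjection e) (h : star w * w = e) : e * star w = star w := by
  simpa [he.isSelfAdjoint.star_eq] using congrArg star (pi_right he h)

theorem pi_proj {w e : A} (he : IsStarProjection e) (h : star w * w = e) :
    IsStarProjection (w * star w) :=
  ⟨by rw [IsIdempotentElem, mul_assoc, ← mul_assoc (star w), h, ← mul_assoc, pi_right he h],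
    IsSelfAdjoint.mul_star_self w⟩

theorem pi_norm {w e : A} (he : IsStarProjection e) (h : star w * w = e) : ‖w‖ ≤ 1 := by
  have h1 := he.norm_le
  rw [← h, CStarRing.norm_star_mul_self] at h1
  nlinarith [norm_nonneg w]

theorem exists_pi {y e : A} (he : IsStarProjection e) (hy : y * e = y) {c : ℝ}
    (h : ‖star y * y - c • e‖ < c) : ∃ z, star (y * z) * (y * z) = e := by
  obtain ⟨h₀, hh⟩ : ∃ h₀, h₀ = star y * y + c • (1 - e) := ⟨_, rfl⟩
  have hsa : IsSelfAdjoint h₀ := hh ▸ (IsSelfAdjoint.star_mul_self y).add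
    ((IsSelfAdjoint.all c).smul he.one_sub.isSelfAdjoint)
  have hy' : e * star y = star y := by simpa [he.isSelfAdjoint.star_eq] using congrArg star hy
  have h1 : h₀ * e = star y * y := by
    rw [hh, add_mul, smul_mul_assoc, he.one_sub_mul_self, mul_assoc, hy]; simp
  have h2 : Commute h₀ e := by
    rw [Commute, SemiconjBy, h1, hh, mul_add, mul_smul_comm, he.mul_one_sub_self, ← mul_assoc, hy']
    simp
  have h3 : ∀ t ∈ spectrum ℝ h₀, 0 < t := fun t ht => by
    have h4 := norm_apply_le_norm_cfc (fun t : ℝ => t - c) h₀ ht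
    rw [cfc_sub .., cfc_id' .., cfc_const ..] at h4
    have h5 : h₀ - algebraMap ℝ A c = star y * y - c • e := by
      rw [hh, Algebra.algebraMap_eq_smul_one, smul_sub]; abel
    rw [h5, Real.norm_eq_abs] at h4
    have := (abs_lt.1 (h4.trans_lt h)).1
    linarith
  have hc : ContinuousOn (fun t : ℝ => (√t)⁻¹) (spectrum ℝ h₀) :=
    Real.continuous_sqrt.continuousOn.inv₀ fun t ht => (Real.sqrt_pos.2 (h3 t ht)).ne'
  refine ⟨cfc (fun t : ℝ => (√t)⁻¹) h₀, ?_⟩
  have h6 : cfc (fun t : ℝ => (√t)⁻¹) h₀ * h₀ * cfc (fun t : ℝ => (√t)⁻¹) h₀ = 1 := by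
    nth_rewrite 2 [← cfc_id' ℝ h₀]
    rw [← cfc_mul _ _ h₀ hc (continuousOn_id' _),
      ← cfc_mul (fun t : ℝ => (√t)⁻¹ * t) _ h₀ (hc.mul (continuousOn_id' _)) hc, ← cfc_one ℝ h₀]
    refine cfc_congr fun t ht => ?_
    have := Real.sqrt_pos.2 (h3 t ht)
    simp only [Pi.one_apply]
    field_simp
    rw [Real.sq_sqrt (h3 t ht).le]
  have h7 := h2.cfc_real fun t : ℝ => (√t)⁻¹
  rw [star_mul, (IsSelfAdjoint.cfc (f := fun t : ℝ => (√t)⁻¹) (a := h₀)).star_eq, mul_assoc, ← mul_assoc (star y), ← h1, mul_assoc,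
    ← h7.eq, ← mul_assoc, ← mul_assoc, h6, one_mul]

/-- the abstract properties used in the construction -/
structure Rich (τ : A →ₗ[ℂ] ℂ) : Prop where
  tr : IsFaithfulTracialState τ
  rich : ∀ b e : A, ‖b‖ ≤ 1 → IsStarProjection e →
    16 * (τ e).re < (τ (star b * b)).re ^ 2 → ∃ z, star (b * z) * (b * z) = e
  small : ∀ ε : ℝ, 0 < ε → ∃ L : List A, (∀ e ∈ L, IsStarProjection e ∧ (τ e).re ≤ ε) ∧ L.sum = 1

variable {τ : A →ₗ[ℂ] ℂ}

theorem Rich.pos (h : Rich τ) {x : A} (hx : x ≠ 0) : 0 < (τ (star x * x)).re := by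
  obtain ⟨-, h1, h2, -⟩ := h.tr
  refine lt_of_le_of_ne (h1 x).2 fun h3 => hx (h2 x ?_)
  exact Complex.ext h3.symm (h1 x).1

theorem Rich.proj_pos (h : Rich τ) {p : A} (hp : IsStarProjection p) (h0 : p ≠ 0) :
    0 < (τ p).re := by
  simpa [hp.isSelfAdjoint.star_eq, hp.isIdempotentElem.eq] using h.pos h0

theorem Rich.proj_nonneg (h : Rich τ) {p : A} (hp : IsStarProjection p) : 0 ≤ (τ p).re := by
  simpa [hp.isSelfAdjoint.star_eq, hp.isIdempotentElem.eq] using (h.tr.2.1 p).2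

theorem Rich.comm (h : Rich τ) (x y : A) : τ (x * y) = τ (y * x) := h.tr.2.2.2 x y

theorem Rich.crude (h : Rich τ) {q q' : A} (hq : IsStarProjection q) (hq' : IsStarProjection q')
    (hlt : 16 * (τ q).re < (τ q').re ^ 2) : ∃ w, star w * w = q ∧ q' * w = w := by
  obtain ⟨z, hz⟩ := h.rich q' q hq'.norm_le hq
    (by rwa [hq'.isSelfAdjoint.star_eq, hq'.isIdempotentElem.eq])
  exact ⟨q' * z, hz, by rw [← mul_assoc, hq'.isIdempotentElem.eq]⟩

theorem Rich.exists_small (h : Rich τ) {ε : ℝ} (hε : 0 < ε) {P : A → Prop}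
    (hP : ∀ L : List A, (∀ e ∈ L, P e) → P L.sum) (h1 : ¬ P 1) :
    ∃ e, IsStarProjection e ∧ (τ e).re ≤ ε ∧ ¬ P e := by
  obtain ⟨L, hL, hL1⟩ := h.small ε hε
  by_contra hc
  push Not at hc
  exact h1 (hL1 ▸ hP L fun e he => hc e (hL e he).1 (hL e he).2)

theorem sub_pi_proj {q v e : A} (hq : IsStarProjection q) (he : IsStarProjection e)
    (hv : star v * v = e) (hqv : q * v = v) : IsStarProjection (q - v * star v) :=
  (pi_proj he hv).sub_of_mul_eq_right hq (by rw [← mul_assoc, hqv])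

theorem Rich.compare (h : Rich τ) {q q' : A} (hq : IsStarProjection q) (hq' : IsStarProjection q')
    (hlt : (τ q).re < (τ q').re) : ∃ w, star w * w = q ∧ q' * w = w := by
  obtain ⟨δ, hδ⟩ : ∃ δ, δ = (τ q').re - (τ q).re := ⟨_, rfl⟩
  have hδ0 : 0 < δ := by linarith
  obtain ⟨e, he, he1, he0⟩ := h.exists_small (ε := min (δ ^ 2 / 32) ((δ ^ 2 / 16) ^ 2 / 32))
    (by positivity) (P := fun e => e = 0) (fun L hL => List.sum_eq_zero hL) (fun h1 => by
      have := h.tr.1
      rw [h1, map_zero] at this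
      exact zero_ne_one this)
  have he2 := h.proj_pos he he0
  have he3 := he1.trans (min_le_left _ _)
  have he4 := he1.trans (min_le_right _ _)
  obtain ⟨N, hN⟩ := exists_nat_gt ((τ q).re / (τ e).re)
  rw [div_lt_iff₀ he2] at hN
  clear hlt
  induction N generalizing q q' with
  | zero => have := h.proj_nonneg hq; simp at hN; linarith
  | succ N ih =>
    have hq0 := h.proj_nonneg hq
    have h1 : δ ^ 2 ≤ (τ q').re ^ 2 := by gcongr; linarith
    by_cases hs : 16 * (τ q).re < δ ^ 2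
    · exact h.crude hq hq' (hs.trans_le h1)
    have h2 : (δ ^ 2 / 16) ^ 2 ≤ (τ q).re ^ 2 := by gcongr; linarith
    obtain ⟨v₁, hv₁, hqv₁⟩ := h.crude he hq (by nlinarith [sq_pos_of_pos hδ0])
    obtain ⟨v₂, hv₂, hqv₂⟩ := h.crude he hq' (by nlinarith [sq_pos_of_pos hδ0])
    obtain ⟨w, hw, hqw⟩ := ih (sub_pi_proj hq he hv₁ hqv₁) (sub_pi_proj hq' he hv₂ hqv₂)
      (by rw [map_sub, map_sub, h.comm v₁, h.comm v₂, hv₁, hv₂, hδ]; simp)
      (by rw [map_sub, h.comm v₁, hv₁, Complex.sub_re]; push_cast at hN; linarith)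
    have h3 : star v₂ * w = 0 := by
      rw [← hqw, ← mul_assoc, mul_sub, ← mul_assoc, hv₂, pi_left he hv₂]
      have : star v₂ * q' = star v₂ := by
        simpa [hq'.isSelfAdjoint.star_eq] using congrArg star hqv₂
      rw [this]; simp
    have h4 : star w * v₂ = 0 := by simpa using congrArg star h3
    refine ⟨w + v₂ * star v₁, ?_, ?_⟩
    · have : star (w + v₂ * star v₁) * (w + v₂ * star v₁) = star w * w + star w * v₂ * star v₁ +
          v₁ * (star v₂ * w) + v₁ * (star v₂ * v₂) * star v₁ := by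
        rw [star_add, star_mul, star_star]; noncomm_ring
      rw [this, h3, h4, hw, hv₂, pi_right he hv₁]; simp
    · have h5 : q' * w = w := by
        have : q' * (q' - v₂ * star v₂) = q' - v₂ * star v₂ := by
          rw [mul_sub, hq'.isIdempotentElem.eq, ← mul_assoc, hqv₂]
        rw [← hqw, ← mul_assoc, this]
      rw [mul_add, h5, ← mul_assoc, hqv₂]

theorem exists_scale (x : A) : ∃ c : ℂ, c ≠ 0 ∧ ‖c • x‖ ≤ 1 := by
  refine ⟨((‖x‖ + 1 : ℝ) : ℂ)⁻¹, inv_ne_zero (Complex.ofReal_ne_zero.2 (by positivity)), ?_⟩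
  rw [norm_smul, norm_inv, Complex.norm_real, Real.norm_of_nonneg (by positivity),
    inv_mul_le_iff₀ (by positivity)]
  linarith

theorem Rich.simple (h : Rich τ) (I : TwoSidedIdeal A) : I = ⊥ ∨ I = ⊤ := by
  by_contra hc
  push Not at hc
  obtain ⟨x, hxI, hx⟩ : ∃ x ∈ I, x ≠ 0 := by
    by_contra h2
    push Not at h2
    exact hc.1 (eq_bot_iff.2 fun x hx => (TwoSidedIdeal.mem_bot _).2 (h2 x hx))
  obtain ⟨c, hc0, hc1⟩ := exists_scale x
  have h1 := h.pos (smul_ne_zero hc0 hx)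
  obtain ⟨e, he, he1, he0⟩ := h.exists_small (ε := (τ (star (c • x) * c • x)).re ^ 2 / 32)
    (by positivity) (P := fun e => e ∈ I) (fun L hL => list_sum_mem hL)
    (fun h1 => hc.2 (I.eq_top h1))
  obtain ⟨z, hz⟩ := h.rich (c • x) e hc1 he (by nlinarith [sq_pos_of_pos h1])
  apply he0
  rw [← hz, Algebra.smul_def]
  exact I.mul_mem_left _ _ (I.mul_mem_right _ _ (I.mul_mem_left _ _ hxI))

end Crest.Agent.R120
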