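import Crest.Agent.R120.Grp
import Crest.Agent.R120.VN
import Crest.Agent.R120.Ind
import Crest.Agent.R120.Rich

/-! Row 120: the index set, the coding of tasks and strong limits in the group algebra. -/

set_option autoImplicit false

namespace Crest.Agent.R120

open Set Filter Topology
open scoped InnerProductSpace

/-- codes of tasks -/
abbrev Code : Type := (ℕ → Gam ℕ → ℂ) × (ℕ → Gam ℕ → ℂ) × (Gam ℕ → ℂ)

/-- the index set -/
inductive Ix : Type
  | leaf : Ix
  | node : (ℕ → Ix) → Code → Ix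

/-- dependencies -/
def dep : Ix → Set Ix
  | .leaf => ∅
  | .node s _ => range s

instance dep_wf : IsWellFounded Ix (fun a b => a ∈ dep b) :=
  ⟨⟨fun a => by
    induction a with
    | leaf => exact Acc.intro _ fun _ h => h.elim
    | node s c ih => exact Acc.intro _ (by rintro _ ⟨n, rfl⟩; exact ih n)⟩⟩

noncomputable instance : LinearOrder Ix :=
  IsWellFounded.wellOrderExtension (fun a b : Ix => a ∈ dep b)

instance : WellFoundedLT Ix :=
  IsWellFounded.wellOrderExtension.isWellFounded_lt (fun a b : Ix => a ∈ dep b)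

theorem dep_lt (γ : Ix) : dep γ ⊆ Iio γ := fun _ h =>
  Prod.Lex.left _ _ (IsWellFounded.rank_lt_of_rel (r := fun a b : Ix => a ∈ dep b) h)

theorem exists_cl (γ : Ix) : ∃ S : Set Ix, S.Countable ∧ Cl dep S ∧ γ ∈ S := by
  induction γ with
  | leaf => exact ⟨{.leaf}, countable_singleton _, by rintro _ rfl; exact empty_subset _, rfl⟩
  | node s c ih =>
    choose S h1 h2 h3 using ih
    refine ⟨insert (.node s c) (⋃ n, S n), (countable_iUnion h1).insert _, ?_, Or.inl rfl⟩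
    rintro γ (rfl | hγ)
    · rintro _ ⟨n, rfl⟩; exact Or.inr (mem_iUnion.2 ⟨n, h3 n⟩)
    · obtain ⟨n, hn⟩ := mem_iUnion.1 hγ
      exact (h2 n γ hn).trans ((subset_iUnion S n).trans (subset_insert _ _))

theorem exists_cl_of_countable {T : Set Ix} (hT : T.Countable) :
    ∃ S : Set Ix, S.Countable ∧ Cl dep S ∧ T ⊆ S := by
  choose S h1 h2 h3 using exists_cl
  refine ⟨⋃ γ ∈ T, S γ, hT.biUnion fun γ _ => h1 γ, fun β hβ => ?_,
    fun γ hγ => mem_biUnion hγ (h3 γ)⟩
  obtain ⟨γ, hγ, hβ⟩ := mem_iUnion₂.1 hβ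
  exact (h2 γ β hβ).trans (subset_biUnion_of_mem (u := S) hγ)

theorem exists_rec {I X : Type} [LinearOrder I] [WellFoundedLT I] (x₀ : X) (G : I → (I → X) → X)
    (hG : ∀ γ w w', (∀ β < γ, w β = w' β) → G γ w = G γ w') : ∃ v : I → X, ∀ γ, v γ = G γ v := by
  classical
  let F : ∀ γ : I, (∀ β, β < γ → X) → X := fun γ f => G γ fun β => if h : β < γ then f β h else x₀
  refine ⟨WellFoundedLT.fix F, fun γ => ?_⟩
  rw [WellFoundedLT.fix_eq]
  exact hG _ _ _ fun β hβ => by simp [hβ]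

theorem exists_countable_AA {B I : Type} [CStarAlgebra B] (B₀ : Set B) (v : I → B) {x : B}
    (hx : x ∈ AA B₀ v univ) : ∃ T : Set I, T.Countable ∧ x ∈ AA B₀ v T := by
  obtain ⟨y, hy, h⟩ := mem_closure_iff_seq_limit.1 hx
  choose F _ hF using fun n => exists_finset_of_mem_adjoin B₀ v (hy n)
  exact ⟨⋃ n, F n, countable_iUnion fun n => (F n).countable_toSet,
    (isClosed_cs _).mem_of_tendsto h (Eventually.of_forall fun n =>
      AA_mono _ _ (subset_iUnion (fun n => (F n : Set I)) n) (hF n))⟩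

theorem isSeparable_cs {B : Type} [CStarAlgebra B] {G : Set B} (hG : G.Countable) :
    TopologicalSpace.IsSeparable (cs G : Set B) := by
  apply TopologicalSpace.IsSeparable.closure
  have h1 : (G ∪ star G).Countable := hG.union (hG.preimage_of_injOn star_injective.injOn)
  have h2 : (Submonoid.closure (G ∪ star G) : Set B).Countable := by
    rw [Submonoid.closure_eq_image_prod]
    refine Countable.image ?_ _
    have := h1.to_subtype
    refine (countable_range (List.map (Subtype.val : ↥(G ∪ star G) → B))).mono fun l hl => ?_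
    lift l to List ↥(G ∪ star G) using hl
    exact ⟨l, rfl⟩
  have h3 := h2.isSeparable.span (R := ℂ)
  rwa [← Algebra.adjoin_eq_span] at h3

section Lim

variable {H : Type} [NormedAddCommGroup H] [InnerProductSpace ℂ H] [CompleteSpace H]

theorem half_lim {P a : ℕ → H →L[ℂ] H} (ha : ∀ n, ‖a n‖ ≤ 1)
    (h : ∀ n m, n ≤ m → a m * (1 - P n) = a n) (hP : ∀ x, Tendsto (fun n => P n x) atTop (𝓝 0)) :
    ∃ u : H →L[ℂ] H, (∀ x, Tendsto (fun n => a n x) atTop (𝓝 (u x))) ∧
      ∀ n, u * (1 - P n) = a n := by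
  obtain ⟨u, hu⟩ := exists_slim ha fun x => by
    rw [Metric.cauchySeq_iff']
    intro ε hε
    obtain ⟨N, hN⟩ := Metric.tendsto_atTop.1 (hP x) ε hε
    refine ⟨N, fun n hn => ?_⟩
    have h1 := hN N le_rfl
    rw [dist_zero_right] at h1
    rw [dist_eq_norm, ← h N n hn]
    have := (a n).le_of_opNorm_le (ha n) (P N x)
    simp only [mul_apply_eq_comp, sub_apply, one_apply_eq_self, map_sub, sub_sub_cancel]
    linarith
  refine ⟨u, hu, fun n => ?_⟩
  ext x
  refine tendsto_nhds_unique (hu _) (tendsto_const_nhds.congr' ?_)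
  filter_upwards [eventually_ge_atTop n] with m hm
  rw [← h n m hm]; rfl

theorem isom_of {P P' a : ℕ → H →L[ℂ] H} {u : H →L[ℂ] H} (hP' : ∀ n, IsStarProjection (P' n))
    (h1 : ∀ n, star (a n) * a n = 1 - P n) (h2 : ∀ n, a n * star (a n) = 1 - P' n)
    (h3 : ∀ n, u * (1 - P n) = a n) (h4 : ∀ n, star u * (1 - P' n) = star (a n))
    (hP : ∀ x, Tendsto (fun n => P n x) atTop (𝓝 0)) : star u * u = 1 := by
  have h5 : ∀ n, star u * u * (1 - P n) = 1 - P n := fun n => by
    have := pi_left (w := star (a n)) (hP' n).one_sub (by rw [star_star, h2])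
    rw [star_star] at this
    rw [mul_assoc, h3, ← this, ← mul_assoc, h4, h1]
  ext x
  have h6 : Tendsto (fun n => (1 - P n) x) atTop (𝓝 x) := by
    simpa using tendsto_const_nhds.sub (hP x)
  refine tendsto_nhds_unique (((star u * u).continuous.tendsto _).comp h6) (h6.congr fun n => ?_)
  rw [Function.comp_apply, ← mul_apply_eq_comp, h5]

variable {Γ : Type} [Group Γ] (b : HilbertBasis Γ ℂ H)

theorem tau_proj {p : H →L[ℂ] H} (hp : IsStarProjection p) : (tau b p).re = ‖p (b 1)‖ ^ 2 := by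
  have := tau_star_mul_self b p
  rw [hp.isSelfAdjoint.star_eq, hp.isIdempotentElem.eq] at this
  rw [this, Complex.ofReal_re]

theorem tendsto_b_one {P : ℕ → H →L[ℂ] H} (hP : ∀ n, IsStarProjection (P n))
    (h : Tendsto (fun n => (tau b (P n)).re) atTop (𝓝 0)) :
    Tendsto (fun n => ‖P n (b 1)‖) atTop (𝓝 0) := by
  have := (Real.continuous_sqrt.tendsto _).comp h
  simpa [Function.comp_def, tau_proj b (hP _)] using this

theorem exists_unitary {Λ : Subgroup Γ} {P P' a : ℕ → H →L[ℂ] H}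
    (hP : ∀ n, IsStarProjection (P n)) (hP' : ∀ n, IsStarProjection (P' n))
    (hm : ∀ n, P n ∈ MM b Λ ∧ P' n ∈ MM b Λ ∧ a n ∈ MM b Λ)
    (h1 : ∀ n, star (a n) * a n = 1 - P n ∧ a n * star (a n) = 1 - P' n)
    (h2 : ∀ n m, n ≤ m → a m * (1 - P n) = a n ∧ star (a m) * (1 - P' n) = star (a n))
    (h3 : Tendsto (fun n => (tau b (P n)).re) atTop (𝓝 0))
    (h4 : Tendsto (fun n => (tau b (P' n)).re) atTop (𝓝 0)) :
    ∃ u ∈ MM b Λ, u ∈ unitary (H →L[ℂ] H) ∧ ∀ n, u * (1 - P n) = a n ∧ u * P n = P' n * u := by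
  have k : ∀ {P : ℕ → H →L[ℂ] H}, (∀ n, IsStarProjection (P n)) → (∀ n, P n ∈ MM b Λ) →
      Tendsto (fun n => (tau b (P n)).re) atTop (𝓝 0) →
      ∀ x, Tendsto (fun n => P n x) atTop (𝓝 0) := fun hP hm h =>
    tendsto_zero_of_basis b (fun n => (hP n).norm_le) fun g => by
      rw [tendsto_zero_iff_norm_tendsto_zero]
      simpa only [norm_apply_b b (hm _) g] using tendsto_b_one b hP h
  have k1 := k hP (fun n => (hm n).1) h3
  have k2 := k hP' (fun n => (hm n).2.1) h4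
  have ha : ∀ n, ‖a n‖ ≤ 1 := fun n => pi_norm (hP n).one_sub (h1 n).1
  obtain ⟨u, hu, hu'⟩ := half_lim ha (fun n m h => (h2 n m h).1) k1
  obtain ⟨w, hw, hw'⟩ := half_lim (a := fun n => star (a n)) (fun n => by simpa using ha n)
    (fun n m h => (h2 n m h).2) k2
  obtain rfl : w = star u := by
    rw [ContinuousLinearMap.star_eq_adjoint, ContinuousLinearMap.eq_adjoint_iff]
    intro x y
    refine tendsto_nhds_unique ((hw x).inner (𝕜 := ℂ) (tendsto_const_nhds (x := y))) ?_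
    simp only [ContinuousLinearMap.star_eq_adjoint, ContinuousLinearMap.adjoint_inner_left]
    exact tendsto_const_nhds.inner (hu y)
  refine ⟨u, mem_MM_of_tendsto b (fun n => (hm n).2.2) hu,
    ⟨isom_of hP' (fun n => (h1 n).1) (fun n => (h1 n).2) hu' hw' k1, ?_⟩, fun n => ⟨hu' n, ?_⟩⟩
  · have := isom_of (u := star u) (a := fun n => star (a n)) hP
      (fun n => by rw [star_star, (h1 n).2]) (fun n => by rw [star_star, (h1 n).1]) hw'
      (fun n => by rw [star_star, star_star, hu']) k2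
    rwa [star_star] at this
  · have h5 := congrArg star (hw' n)
    rw [star_mul, star_star, star_star, (hP' n).one_sub.isSelfAdjoint.star_eq, ← hu' n, sub_mul,
      mul_sub, one_mul, mul_one, sub_right_inj] at h5
    exact h5.symm

theorem norm_star_b {Λ : Subgroup Γ} {y : H →L[ℂ] H} (hy : y ∈ MM b Λ) :
    ‖star y (b 1)‖ = ‖y (b 1)‖ := by
  have := tau_comm b (star_mem hy) hy
  nth_rewrite 3 [← star_star y] at this
  rw [tau_star_mul_self, tau_star_mul_self, Complex.ofReal_inj] at this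
  exact (pow_left_inj₀ (norm_nonneg _) (norm_nonneg _) two_ne_zero).1 this.symm

theorem norm_mul_QQ {Ω : Set Γ} {Λ : Subgroup Γ} (hΩ : ∀ h ∈ Λ, ∀ w ∈ Ω, h * w ∈ Ω → h = 1)
    {y : H →L[ℂ] H} (hy : y ∈ MM b Λ) : ‖y * QQ b Ω‖ ≤ ‖y (b 1)‖ := by
  refine le_of_sq_le_sq ?_ (norm_nonneg _)
  have h1 := QQ_mul_QQ b hΩ (mul_mem (star_mem hy) hy)
  rw [sq, ← CStarRing.norm_star_mul_self, star_mul, (QQ_proj b Ω).isSelfAdjoint.star_eq,
    mul_assoc, ← mul_assoc (star y), ← mul_assoc, h1, norm_smul, tau_star_mul_self,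
    Complex.norm_real, Real.norm_of_nonneg (sq_nonneg _)]
  exact mul_le_of_le_one_right (sq_nonneg _) (QQ_proj b Ω).norm_le

end Lim

theorem pp_est {B : Type} [CStarAlgebra B] {Q e g x : B} (hQ : IsStarProjection Q)
    (he : IsStarProjection e) (hg : ‖g‖ ≤ 1) (hQg : (1 - Q) * g * (1 - Q) = 0)
    (hx : Q * x * Q = 0) : ‖e * (g * x * g) * e‖ ≤ 2 * (‖e * Q‖ * ‖x‖) := by
  have e1 : (1 - Q) * g = (1 - Q) * g * Q := by
    rw [mul_sub, mul_one, sub_eq_zero] at hQg; exact hQg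
  have e2 : g * (1 - Q) = Q * (g * (1 - Q)) := by
    rw [mul_assoc, sub_mul, one_mul, sub_eq_zero] at hQg; exact hQg
  have e3 : (1 - Q) * (g * x * g) * (1 - Q) = 0 := by
    calc _ = ((1 - Q) * g) * x * (g * (1 - Q)) := by simp only [mul_assoc]
      _ = ((1 - Q) * g) * (Q * x * Q) * (g * (1 - Q)) := by
        conv_lhs => rw [e1, e2]
        simp only [mul_assoc]
      _ = 0 := by rw [hx]; simp
  have hW : ‖g * x * g‖ ≤ ‖x‖ := by
    calc _ ≤ ‖g‖ * ‖x‖ * ‖g‖ := norm_mul₃_le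
      _ ≤ 1 * ‖x‖ * 1 := by gcongr
      _ = _ := by ring
  generalize g * x * g = W at e3 hW
  have e4 : e * W * e = e * Q * W * e + e * (1 - Q) * W * (Q * e) +
      e * ((1 - Q) * W * (1 - Q)) * e := by noncomm_ring
  have e5 : ‖Q * e‖ = ‖e * Q‖ := by
    rw [← norm_star, star_mul, he.isSelfAdjoint.star_eq, hQ.isSelfAdjoint.star_eq]
  have e6 : ‖e * (1 - Q)‖ ≤ 1 := (norm_mul_le _ _).trans
    (by simpa using mul_le_mul he.norm_le hQ.one_sub.norm_le (norm_nonneg _) zero_le_one)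
  rw [e4, e3, mul_zero, zero_mul, add_zero]
  calc _ ≤ ‖e * Q‖ * ‖W‖ * ‖e‖ + ‖e * (1 - Q)‖ * ‖W‖ * ‖Q * e‖ :=
        (norm_add_le _ _).trans (add_le_add norm_mul₃_le norm_mul₃_le)
    _ ≤ ‖e * Q‖ * ‖x‖ * 1 + 1 * ‖x‖ * ‖e * Q‖ := by
        rw [e5]; gcongr; exact he.norm_le
    _ = _ := by ring

end Crest.Agent.R120
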