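import Crest.Agent.R120.Rich
import Crest.Agent.R120.Dens

/-! Row 120: excision of vector states by small projections. -/

set_option autoImplicit false

namespace Crest.Agent.R120

open Crest.OpAlg Complex
open scoped InnerProductSpace ComplexConjugate ComplexStarModule

variable {A : Type} [CStarAlgebra A] {τ : A →ₗ[ℂ] ℂ}
variable {H : Type} [NormedAddCommGroup H] [InnerProductSpace ℂ H] [CompleteSpace H]
variable {π : A →⋆ₙₐ[ℂ] (H →L[ℂ] H)}

theorem cayley {k : A} (hk : IsSelfAdjoint k) :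
    ∃ U m : A, star U * U = 1 ∧ U * (1 - I • k) = 1 + I • k ∧ U = 1 + k * m := by
  have h1 : IsUnit (1 - I • k) := by
    have h2 : -I ∉ spectrum ℂ k := fun h => by
      have := hk.mem_spectrum_eq_re h
      simpa using congrArg Complex.im this
    have h3 := (spectrum.notMem_iff.1 h2).smul (Units.mk0 I I_ne_zero)
    convert h3 using 1
    simp [Algebra.algebraMap_eq_smul_one, smul_sub, smul_smul, Units.smul_def]
  obtain ⟨m, hm, hm'⟩ := isUnit_iff_exists.1 h1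
  have h4 : star (1 - I • k) = 1 + I • k := by simp [hk.star_eq]
  have h5 : (1 - I • k) * (1 + I • k) = (1 + I • k) * (1 - I • k) := by
    generalize I • k = j; noncomm_ring
  refine ⟨(1 + I • k) * m, (2 * I) • m, ?_, by rw [mul_assoc, hm', mul_one], ?_⟩
  · rw [star_mul, ← h4, star_star, h4, mul_assoc, ← mul_assoc (1 - I • k), h5, mul_assoc, hm,
      mul_one, ← h4, ← star_mul, hm, star_one]
  · simp only [add_mul, sub_mul, one_mul, smul_mul_assoc, mul_smul_comm] at hm ⊢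
    linear_combination (norm := module) hm

theorem rep_norm_le (π : A →⋆ₙₐ[ℂ] (H →L[ℂ] H)) (a : A) (x : H) : ‖π a x‖ ≤ ‖a‖ * ‖x‖ :=
  (π a).le_of_opNorm_le (NonUnitalStarAlgHom.norm_apply_le π a) x

theorem rep_norm_eq (π : A →⋆ₙₐ[ℂ] (H →L[ℂ] H)) {a c : A} (h : star a * a = star c * c) (x : H) :
    ‖π a x‖ = ‖π c x‖ :=
  (pow_left_inj₀ (norm_nonneg _) (norm_nonneg _) two_ne_zero).1
    (by rw [rep_norm_sq, rep_norm_sq, h])

theorem move (h : Rich τ) (hπ : IsIrreducibleRep π) {f : A} (hf : IsSelfAdjoint f)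
    (hf1 : ‖f‖ ≤ 1) {ξ₀ : H} (hξ : ‖π f ξ₀‖ = 1) {ε : ℝ} (hε : 0 < ε) :
    ∃ w₀ e : A, IsStarProjection e ∧ star (f * w₀) * (f * w₀) = e ∧ (τ e).re ≤ ε ∧
      ∃ η : H, ‖η‖ = 1 ∧ π (f * w₀ * star (f * w₀)) η = η ∧ ‖η - π f ξ₀‖ ≤ ε := by
  have hf0 : f ≠ 0 := by rintro rfl; simp at hξ
  have hc := h.pos hf0
  obtain ⟨e, he, he1, he0⟩ := h.exists_small (ε := min ε ((τ (star f * f)).re ^ 2 / 32))
    (by positivity) (P := fun e => π e = 0)
    (fun L hL => by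
      rw [map_list_sum]
      exact List.sum_eq_zero (by simpa using hL))
    (fun h1 => by
      rw [irr_one hπ] at h1
      have := DFunLike.congr_fun h1 (π f ξ₀)
      rw [one_apply_eq_self, zero_apply] at this
      rw [this] at hξ; simp at hξ)
  obtain ⟨z, hz⟩ := h.rich f e hf1 he
    (by nlinarith [sq_pos_of_pos hc, he1.trans (min_le_right _ _)])
  obtain ⟨y, hy, hy'⟩ : ∃ y, ‖π (f * z) y‖ = 1 ∧ π (f * z) y + π f ξ₀ ≠ 0 := by
    obtain ⟨x, hx⟩ : ∃ x, π e x ≠ 0 := by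
      by_contra hc; push Not at hc; exact he0 (by ext x; exact hc x)
    have h1 : ‖π (f * z) x‖ = ‖π e x‖ :=
      rep_norm_eq π (by rw [hz, he.isSelfAdjoint.star_eq, he.isIdempotentElem.eq]) x
    have h2 : ‖π (f * z) (((‖π e x‖ : ℂ)⁻¹) • x)‖ = 1 := by
      rw [map_smul, norm_smul, h1]; simp [hx]
    by_cases h3 : π (f * z) (((‖π e x‖ : ℂ)⁻¹) • x) + π f ξ₀ = 0
    · refine ⟨-(((‖π e x‖ : ℂ)⁻¹) • x), by rw [map_neg, norm_neg, h2], fun h4 => ?_⟩
      rw [map_neg, eq_neg_of_add_eq_zero_left h3, neg_neg, ← two_smul ℂ, smul_eq_zero] at h4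
      rcases h4 with h4 | h4
      · norm_num at h4
      · rw [h4] at hξ; simp at hξ
    · exact ⟨_, h2, h3⟩
  obtain ⟨η, hη⟩ : ∃ η, η = π (f * z) y := ⟨_, rfl⟩
  obtain ⟨ξ, hξ'⟩ : ∃ ξ, ξ = π f ξ₀ := ⟨_, rfl⟩
  rw [← hη] at hy hy'
  rw [← hξ'] at hξ hy' ⊢
  have hη' : η = π f (π z y) := by rw [hη, map_mul, mul_apply_eq_comp]
  have hin : ∀ u v, ⟪π f u, v⟫_ℂ = ⟪u, π f v⟫_ℂ := fun u v => by rw [rep_inner, hf.star_eq]
  have h1 : π f (η + ξ) ≠ 0 := fun h0 => hy' (by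
    have : η + ξ = π f (π z y + ξ₀) := by rw [map_add, ← hη', ← hξ']
    rw [← inner_self_eq_zero (𝕜 := ℂ)]
    nth_rewrite 1 [this]
    rw [hin, h0, inner_zero_right])
  have hβ : π f (I • (π z y - ξ₀)) = I • (η - ξ) := by rw [map_smul, map_sub, ← hη', ← hξ']
  obtain ⟨k, hk, hkε⟩ := irr_sa_dense hπ h1 (β := I • (π z y - ξ₀)) (by
    rw [hin, hβ, inner_smul_right, inner_sub_right, inner_add_left, inner_add_left,
      inner_self_eq_norm_sq_to_K, inner_self_eq_norm_sq_to_K, hy, hξ]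
    have := inner_re_symm (𝕜 := ℂ) ξ η
    simp only [RCLike.re_to_complex] at this
    simp [this, add_comm]) hε
  obtain ⟨U, m, hU, hU1, hU2⟩ := cayley (k := f * k * f) (by simpa [hf.star_eq] using hk.conjugate f)
  obtain ⟨r, hr⟩ : ∃ r, r = π (f * k * f) (η + ξ) - I • (η - ξ) := ⟨_, rfl⟩
  have hr1 : ‖r‖ ≤ ε := by
    rw [hr, ← hβ, map_mul, map_mul, mul_apply_eq_comp, mul_apply_eq_comp, ← map_sub]
    refine (rep_norm_le π f _).trans ?_
    calc _ ≤ 1 * ε := by gcongr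
      _ = ε := one_mul _
  have hUn : ∀ v, ‖π U v‖ = ‖v‖ := fun v => by
    rw [rep_norm_eq π (c := 1) (by simpa using hU), irr_one hπ, one_apply_eq_self]
  have hw : f * (z + k * f * m * (f * z)) = U * (f * z) := by rw [hU2]; noncomm_ring
  refine ⟨z + k * f * m * (f * z), e, he, ?_, he1.trans (min_le_left _ _), π U η,
    by rw [hUn, hy], ?_, ?_⟩
  · rw [hw, star_mul, mul_assoc, ← mul_assoc (star U), hU, one_mul, hz]
  · rw [hw, hη, ← mul_apply_eq_comp, ← mul_apply_eq_comp, ← map_mul, ← map_mul]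
    have : U * (f * z) * star (U * (f * z)) * (U * (f * z)) = U * (f * z) := by
      generalize f * z = v at hz
      rw [star_mul, mul_assoc, mul_assoc, mul_assoc, ← mul_assoc (star U), hU,
        one_mul, hz, pi_right he hz]
    rw [mul_assoc _ U, this, map_mul, mul_apply_eq_comp]
  · have h2 := DFunLike.congr_fun (congrArg π hU1) (η + ξ)
    simp only [map_mul π U, mul_apply_eq_comp, map_sub π, map_add π, map_smul π, irr_one hπ,
      sub_apply, add_apply, smul_apply, one_apply_eq_self] at h2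
    rw [eq_sub_iff_add_eq.1 hr |>.symm] at h2
    have h3 : η + ξ - I • (r + I • (η - ξ)) = (2 : ℂ) • η - I • r := by
      rw [smul_add, smul_smul, I_mul_I]; module
    have h4 : η + ξ + I • (r + I • (η - ξ)) = (2 : ℂ) • ξ + I • r := by
      rw [smul_add, smul_smul, I_mul_I]; module
    rw [h3, h4, map_sub, map_smul, map_smul] at h2
    have h5 : (2 : ℂ) • (π U η - ξ) = I • r + I • π U r := by
      linear_combination (norm := module) h2
    have h6 := norm_add_le (I • r) (I • π U r)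
    rw [← h5, norm_smul, norm_smul, norm_smul, hUn] at h6
    simp at h6
    linarith

theorem cut {s : A} (hs : IsSelfAdjoint s) : ∃ f₀ f₁ ψ : A, IsSelfAdjoint f₀ ∧ ‖f₀‖ ≤ 1 ∧
    f₁ * f₀ = f₀ ∧ ‖s * f₁‖ ≤ 3 ∧ 1 - f₀ = ψ * s ∧ ‖ψ‖ ≤ 1 ∧ ∀ y, Commute s y → Commute f₀ y := by
  let φ₀ : ℝ → ℝ := fun t => max 0 (min 1 (2 - |t|))
  let φ₁ : ℝ → ℝ := fun t => max 0 (min 1 (3 - |t|))
  let ψ : ℝ → ℝ := fun t => (1 - φ₀ t) * t / max (t ^ 2) 1
  have c₀ : Continuous φ₀ := by fun_prop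
  have c₁ : Continuous φ₁ := by fun_prop
  have c₂ : Continuous ψ := Continuous.div (by fun_prop) (by fun_prop) fun t => by positivity
  have b₀ : ∀ t, 0 ≤ φ₀ t ∧ φ₀ t ≤ 1 := fun t =>
    ⟨le_max_left _ _, max_le zero_le_one (min_le_left _ _)⟩
  refine ⟨cfc φ₀ s, cfc φ₁ s, cfc ψ s, IsSelfAdjoint.cfc, norm_cfc_le zero_le_one fun t _ => ?_,
    ?_, ?_, ?_, norm_cfc_le zero_le_one fun t _ => ?_, fun y hy => hy.cfc_real _⟩
  · rw [Real.norm_of_nonneg (b₀ t).1]; exact (b₀ t).2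
  · rw [← cfc_mul _ _ s c₁.continuousOn c₀.continuousOn]
    refine cfc_congr fun t _ => ?_
    rcases le_total |t| 2 with h | h
    · have : φ₁ t = 1 := by
        simp only [φ₁]; rw [min_eq_left (by linarith), max_eq_right zero_le_one]
      simp [this]
    · have : φ₀ t = 0 := max_eq_left (min_le_of_right_le (by linarith))
      simp [this]
  · nth_rewrite 1 [← cfc_id' ℝ s]
    rw [← cfc_mul _ _ s (continuousOn_id' _) c₁.continuousOn]
    refine norm_cfc_le (by norm_num) fun t _ => ?_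
    rcases le_total |t| 3 with h | h
    · rw [norm_mul, Real.norm_eq_abs, Real.norm_of_nonneg (le_max_left _ _)]
      have : φ₁ t ≤ 1 := max_le zero_le_one (min_le_left _ _)
      have h2 : 0 ≤ φ₁ t := le_max_left _ _
      change |t| * φ₁ t ≤ 3
      nlinarith [abs_nonneg t]
    · have : φ₁ t = 0 := max_eq_left (min_le_of_right_le (by linarith))
      simp [this]
  · nth_rewrite 3 [← cfc_id' ℝ s]
    rw [← cfc_mul _ _ s c₂.continuousOn (continuousOn_id' _), ← cfc_const_one ℝ s,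
      ← cfc_sub _ _ s continuousOn_const c₀.continuousOn]
    refine cfc_congr fun t _ => ?_
    rcases le_total |t| 1 with h | h
    · have : φ₀ t = 1 := by
        simp only [φ₀]; rw [min_eq_left (by linarith), max_eq_right zero_le_one]
      simp [ψ, this]
    · have h1 : 1 ≤ t ^ 2 := by rw [← sq_abs]; nlinarith
      have h2 : t ≠ 0 := by rintro rfl; norm_num at h1
      simp only [ψ, max_eq_left h1]
      field_simp
  · simp only [ψ]
    rw [norm_div, norm_mul, Real.norm_of_nonneg (sub_nonneg.2 (b₀ t).2), Real.norm_eq_abs,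
      Real.norm_of_nonneg (by positivity), div_le_one (by positivity)]
    have h1 : |t| ≤ max (t ^ 2) 1 := by
      rcases le_total |t| 1 with h | h
      · exact le_max_of_le_right h
      · exact le_max_of_le_left (by rw [← sq_abs]; nlinarith)
    nlinarith [b₀ t, abs_nonneg t]

theorem exists_abs (l : A) : ∃ s : A, IsSelfAdjoint s ∧ star s * s = star l * l ∧
    ∀ y, Commute (star l * l) y → Commute s y := by
  have hs := IsSelfAdjoint.star_mul_self l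
  refine ⟨cfc Real.sqrt (star l * l), IsSelfAdjoint.cfc, ?_, fun y hy => hy.cfc_real _⟩
  rw [IsSelfAdjoint.cfc.star_eq, ← cfc_mul ..]
  nth_rewrite 2 [← cfc_id' ℝ (star l * l)]
  exact cfc_congr fun t ht => Real.mul_self_sqrt (spectrum_star_mul_self_nonneg t ht)

/-- `p` excises `x` up to `ε` -/
def Exc (p x : A) (ε : ℝ) : Prop := ∃ c : ℂ, ‖p * x * p - c • p‖ ≤ ε

theorem Exc.mono {p q x : A} {ε ε' : ℝ} (h : Exc p x ε) (hp : IsStarProjection p)
    (hq : IsStarProjection q) (hpq : p * q = q) (hε : ε ≤ ε') : Exc q x ε' := by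
  obtain ⟨c, hc⟩ := h
  have hqp : q * p = q := by
    simpa [hp.isSelfAdjoint.star_eq, hq.isSelfAdjoint.star_eq] using congrArg star hpq
  refine ⟨c, ?_⟩
  have : q * x * q - c • q = q * (p * x * p - c • p) * q := by
    simp only [mul_sub, sub_mul, mul_smul_comm, smul_mul_assoc, ← mul_assoc, hqp,
      hq.isIdempotentElem.eq]
    rw [mul_assoc _ p, hpq]
  rw [this]
  calc _ ≤ ‖q‖ * ‖p * x * p - c • p‖ * ‖q‖ := norm_mul₃_le
    _ ≤ 1 * ε * 1 := by
      have := (norm_nonneg _).trans hc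
      gcongr <;> exact hq.norm_le
    _ ≤ _ := by linarith

theorem excise_sa (h : Rich τ) (hπ : IsIrreducibleRep π) {P : A} (hP : IsStarProjection P)
    {ξ : H} (hξ : ‖ξ‖ = 1) (hPξ : π P ξ = ξ) {x : A} (hx : IsSelfAdjoint x) {ε : ℝ} (hε : 0 < ε) :
    ∃ (p : A) (ξ' : H), IsStarProjection p ∧ P * p = p ∧ (τ p).re ≤ ε ∧ ‖ξ'‖ = 1 ∧ π p ξ' = ξ' ∧
      ‖ξ' - ξ‖ ≤ ε ∧ Exc p x ε := by
  have hξ0 : ξ ≠ 0 := by rintro rfl; simp at hξ
  obtain ⟨c, hc⟩ : ∃ c, c = ⟪ξ, π x ξ⟫_ℂ := ⟨_, rfl⟩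
  have hc' : conj c = c := by rw [hc, inner_conj_symm, rep_inner, hx.star_eq]
  obtain ⟨x₀, hx₀⟩ : ∃ x₀, x₀ = x - c • 1 := ⟨_, rfl⟩
  have hx₀' : star x₀ = x₀ := by simp [hx₀, hx.star_eq, hc']
  obtain ⟨δ, hδ⟩ : ∃ δ, δ = min (ε / 4) (1 / 2) := ⟨_, rfl⟩
  have hδ0 : 0 < δ := by rw [hδ]; positivity
  have hδ1 : δ ≤ ε / 4 := hδ ▸ min_le_left _ _
  have hδ2 : δ ≤ 1 / 2 := hδ ▸ min_le_right _ _
  obtain ⟨k, hk, hkε⟩ := irr_sa_dense hπ hξ0 (β := (I / 2) • π x₀ ξ) (by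
    simp [hx₀, irr_one hπ, ← hc, hξ])
    (ε := ε / 6 * δ) (by positivity)
  obtain ⟨l, hl⟩ : ∃ l, l = (1 / 2 : ℂ) • x₀ + I • k := ⟨_, rfl⟩
  have hl1 : l + star l = x₀ := by
    simp only [hl, star_add, star_smul, hx₀', hk.star_eq, RCLike.star_def, conj_I, map_div₀,
      map_one, map_ofNat]
    module
  have hl2 : ‖π l ξ‖ ≤ ε / 6 * δ := by
    have : π l ξ = I • (π k ξ - (I / 2) • π x₀ ξ) := by
      simp only [hl, map_add, map_smul, add_apply, smul_apply, smul_sub, smul_smul]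
      rw [show I * (I / 2) = -(1 / 2) by rw [mul_div_assoc', I_mul_I]; ring]
      module
    rw [this, norm_smul, norm_I, one_mul]
    exact hkε.le
  obtain ⟨θ, hθ⟩ : ∃ θ : ℂ, θ = ((ε / 6 : ℝ) : ℂ) := ⟨_, rfl⟩
  have hθ1 : ‖θ‖ = ε / 6 := by rw [hθ, norm_real, Real.norm_of_nonneg (by positivity)]
  have hθ0 : θ ≠ 0 := by rw [← norm_ne_zero_iff, hθ1]; positivity
  obtain ⟨s, hs, hs1, hs2⟩ := exists_abs (θ⁻¹ • (l * P))
  obtain ⟨f₀, f₁, ψ, hf₀, hf₀', hf, hsf, hψ, hψ', hcomm⟩ := cut hs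
  have hPf : Commute f₀ P := hcomm P (hs2 P (by
    simp [Commute, SemiconjBy, hP.isSelfAdjoint.star_eq, mul_assoc, hP.isIdempotentElem.eq,
      ← mul_assoc P P]))
  have h1 : ‖π (f₀ * P) ξ - ξ‖ ≤ δ := by
    have h2 : ξ - π (f₀ * P) ξ = π ψ (π s ξ) := by
      rw [← mul_apply_eq_comp, ← map_mul, ← hψ, map_mul, mul_apply_eq_comp, hPξ]
      simp [irr_one hπ]
    rw [norm_sub_rev, h2]
    refine (rep_norm_le π ψ _).trans ?_
    rw [rep_norm_eq π hs1, map_smul, smul_apply, map_mul, mul_apply_eq_comp, hPξ, norm_smul,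
      norm_inv, hθ1]
    calc _ ≤ 1 * ((ε / 6)⁻¹ * (ε / 6 * δ)) := by gcongr
      _ = δ := by field_simp
  obtain ⟨ξ₂, hξ₂⟩ : ∃ ξ₂, ξ₂ = π (f₀ * P) ξ := ⟨_, rfl⟩
  rw [← hξ₂] at h1
  have h2 : |‖ξ₂‖ - 1| ≤ δ := by rw [← hξ]; exact (abs_norm_sub_norm_le _ _).trans h1
  have h3 : 0 < ‖ξ₂‖ := by have := (abs_le.1 h2).1; linarith
  obtain ⟨w₀, e, he, hw, he1, η, hη, hη1, hη2⟩ := move h hπ (f := f₀ * P)
    ((hf₀.commute_iff hP.isSelfAdjoint).1 hPf)
    ((norm_mul_le _ _).trans (by simpa using mul_le_mul hf₀' hP.norm_le (norm_nonneg _) zero_le_one))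
    (ξ₀ := (‖ξ₂‖ : ℂ)⁻¹ • ξ) (by rw [map_smul, ← hξ₂, norm_smul]; simp [h3.ne'])
    (half_pos hε)
  obtain ⟨w, hw'⟩ : ∃ w, w = f₀ * P * w₀ := ⟨_, rfl⟩
  rw [← hw'] at hw hη1
  have hPw : P * w = w := by
    rw [hw', ← mul_assoc, ← mul_assoc, ← hPf.eq, mul_assoc f₀, hP.isIdempotentElem.eq]
  have hfw : f₁ * w = w := by rw [hw', ← mul_assoc, ← mul_assoc, hf]
  have hw1 := pi_norm he hw
  have hp := pi_proj he hw
  refine ⟨w * star w, η, hp, by rw [← mul_assoc, hPw], by rw [h.comm, hw]; linarith, hη, hη1,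
    ?_, c, ?_⟩
  · rw [map_smul, ← hξ₂] at hη2
    have h4 : ‖(‖ξ₂‖ : ℂ)⁻¹ • ξ₂ - ξ₂‖ ≤ δ := by
      have : (‖ξ₂‖ : ℂ)⁻¹ • ξ₂ - ξ₂ = (((1 - ‖ξ₂‖) / ‖ξ₂‖ : ℝ) : ℂ) • ξ₂ := by
        nth_rewrite 3 [← one_smul ℂ ξ₂]
        rw [← sub_smul]
        congr 1
        have : (‖ξ₂‖ : ℂ) ≠ 0 := by exact_mod_cast h3.ne'
        push_cast; field_simp
      rw [this, norm_smul, norm_real, norm_div, norm_norm, div_mul_cancel₀ _ h3.ne',
        Real.norm_eq_abs, abs_sub_comm]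
      exact h2
    have h5 := norm_sub_le_norm_sub_add_norm_sub η ((‖ξ₂‖ : ℂ)⁻¹ • ξ₂) ξ
    have h6 := norm_sub_le_norm_sub_add_norm_sub ((‖ξ₂‖ : ℂ)⁻¹ • ξ₂) ξ₂ ξ
    linarith
  · have h4 : ‖l * w‖ ≤ ε / 2 := by
      have h5 : ‖(θ⁻¹ • (l * P)) * w‖ = ‖s * w‖ := by
        refine (mul_self_inj_of_nonneg (norm_nonneg _) (norm_nonneg _)).1 ?_
        rw [← CStarRing.norm_star_mul_self, ← CStarRing.norm_star_mul_self, star_mul, star_mul s,
          mul_assoc, mul_assoc, ← mul_assoc (star s), hs1, ← mul_assoc (star (θ⁻¹ • (l * P)))]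
      have h6 : ‖s * w‖ ≤ 3 := by
        rw [← hfw, ← mul_assoc]
        refine (norm_mul_le _ _).trans ?_
        calc _ ≤ 3 * 1 := by gcongr
          _ = (3 : ℝ) := mul_one _
      rw [smul_mul_assoc, mul_assoc, hPw, norm_smul, norm_inv, hθ1] at h5
      rw [← h5, inv_mul_le_iff₀ (by positivity)] at h6
      linarith
    have h5 : ‖l * (w * star w)‖ ≤ ε / 2 := by
      rw [← mul_assoc]
      refine (norm_mul_le _ _).trans ?_
      rw [norm_star]
      calc _ ≤ ε / 2 * 1 := by gcongr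
        _ = _ := mul_one _
    generalize w * star w = p at hp h5
    have h6 : p * x * p - c • p = p * (l * p) + star (p * (l * p)) := by
      have : p * x * p - c • p = p * x₀ * p := by
        simp [hx₀, mul_sub, sub_mul, hp.isIdempotentElem.eq]
      rw [this, ← hl1]
      simp [hp.isSelfAdjoint.star_eq, mul_add, add_mul, mul_assoc]
    have h7 : ‖p * (l * p)‖ ≤ ε / 2 := by
      refine (norm_mul_le _ _).trans ?_
      calc _ ≤ 1 * (ε / 2) := by gcongr; exact hp.norm_le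
        _ = _ := one_mul _
    rw [h6]
    refine (norm_add_le _ _).trans ?_
    rw [norm_star]
    linarith

theorem excise (h : Rich τ) (hπ : IsIrreducibleRep π) {P : A} (hP : IsStarProjection P)
    {ξ : H} (hξ : ‖ξ‖ = 1) (hPξ : π P ξ = ξ) (x : A) {ε : ℝ} (hε : 0 < ε) :
    ∃ (p : A) (ξ' : H), IsStarProjection p ∧ P * p = p ∧ (τ p).re ≤ ε ∧ ‖ξ'‖ = 1 ∧ π p ξ' = ξ' ∧
      ‖ξ' - ξ‖ ≤ ε ∧ Exc p x ε := by
  obtain ⟨p, η, hp, hPp, -, hη, hpη, hηξ, hx⟩ :=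
    excise_sa h hπ hP hξ hPξ (ℜ x).2 (half_pos hε)
  obtain ⟨q, ζ, hq, hpq, hτ, hζ, hqζ, hζη, d, hd⟩ :=
    excise_sa h hπ hp hη hpη (ℑ x).2 (half_pos hε)
  obtain ⟨c, hc⟩ := hx.mono hp hq hpq le_rfl
  refine ⟨q, ζ, hq, by rw [← hpq, ← mul_assoc, hPp], by linarith, hζ, hqζ, ?_, c + I * d, ?_⟩
  · have := norm_sub_le_norm_sub_add_norm_sub ζ η ξ
    linarith
  · have : q * x * q - (c + I * d) • q =
        (q * ℜ x * q - c • q) + I • (q * ℑ x * q - d • q) := by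
      nth_rewrite 1 [← realPart_add_I_smul_imaginaryPart x]
      simp only [mul_add, add_mul, mul_smul_comm, smul_mul_assoc]
      module
    rw [this]
    refine (norm_add_le _ _).trans ?_
    rw [norm_smul, norm_I]
    linarith

end Crest.Agent.R120
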