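import Crest.Agent.R120.Sat

/-! Row 120: the gluing step and the free step. -/

set_option autoImplicit false

namespace Crest.Agent.R120

open Filter Topology
open scoped CStarAlgebra

variable {B : Type} [CStarAlgebra B]
variable {K : Type} [NormedAddCommGroup K] [InnerProductSpace ℂ K] [CompleteSpace K]
variable (ρ : B →⋆ₐ[ℂ] (K →L[ℂ] K))

/-- the C⋆-subalgebra generated by a set -/
noncomputable def cs (G : Set B) : StarSubalgebra ℂ B := (StarAlgebra.adjoin ℂ G).topologicalClosure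

theorem subset_cs (G : Set B) : G ⊆ cs G := fun _ hx =>
  StarSubalgebra.le_topologicalClosure _ (StarAlgebra.subset_adjoin ℂ G hx)

theorem isClosed_cs (G : Set B) : IsClosed (cs G : Set B) :=
  StarSubalgebra.isClosed_topologicalClosure _

theorem cs_le {G : Set B} {C : StarSubalgebra ℂ B} (hC : IsClosed (C : Set B)) (h : G ⊆ C) :
    cs G ≤ C :=
  StarSubalgebra.topologicalClosure_minimal (StarAlgebra.adjoin_le h) hC

theorem cs_mono {G G' : Set B} (h : G ⊆ G') : cs G ≤ cs G' :=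
  cs_le (isClosed_cs _) (h.trans (subset_cs _))

/-- bounded strong-⋆ sequential limits -/
def SL (C : StarSubalgebra ℂ B) : StarSubalgebra ℂ (K →L[ℂ] K) where
  carrier := {X | ∃ x : ℕ → B, (∀ n, x n ∈ C) ∧ (∃ M, ∀ n, ‖ρ (x n)‖ ≤ M) ∧
    (∀ ζ, Tendsto (fun n => ρ (x n) ζ) atTop (𝓝 (X ζ))) ∧
    ∀ ζ, Tendsto (fun n => star (ρ (x n)) ζ) atTop (𝓝 (star X ζ))}
  mul_mem' := by
    have key : ∀ (x y : ℕ → K →L[ℂ] K) (X Y : K →L[ℂ] K) (M : ℝ), (∀ n, ‖x n‖ ≤ M) →
        (∀ ζ, Tendsto (fun n => x n ζ) atTop (𝓝 (X ζ))) →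
        (∀ ζ, Tendsto (fun n => y n ζ) atTop (𝓝 (Y ζ))) →
        ∀ ζ, Tendsto (fun n => (x n * y n) ζ) atTop (𝓝 ((X * Y) ζ)) := by
      intro x y X Y M hM hx hy ζ
      have h1 : Tendsto (fun n => x n (y n ζ - Y ζ)) atTop (𝓝 0) := by
        refine squeeze_zero_norm (fun n => (x n).le_of_opNorm_le (hM n) _) ?_
        simpa using (tendsto_iff_norm_sub_tendsto_zero.1 (hy ζ)).const_mul M
      simpa using h1.add (hx (Y ζ))
    rintro X Y ⟨x, hx, ⟨M, hM⟩, hx1, hx2⟩ ⟨y, hy, ⟨M', hM'⟩, hy1, hy2⟩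
    refine ⟨fun n => x n * y n, fun n => mul_mem (hx n) (hy n), ⟨M * M', fun n => ?_⟩, ?_, ?_⟩
    · rw [map_mul]
      exact (norm_mul_le _ _).trans
        (mul_le_mul (hM n) (hM' n) (norm_nonneg _) ((norm_nonneg _).trans (hM n)))
    · simpa only [map_mul] using key _ _ _ _ M hM hx1 hy1
    · simpa only [map_mul, star_mul] using
        key _ _ _ _ M' (fun n => by simpa using hM' n) hy2 hx2
  add_mem' := by
    rintro X Y ⟨x, hx, ⟨M, hM⟩, hx1, hx2⟩ ⟨y, hy, ⟨M', hM'⟩, hy1, hy2⟩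
    refine ⟨fun n => x n + y n, fun n => add_mem (hx n) (hy n), ⟨M + M', fun n => ?_⟩,
      fun ζ => ?_, fun ζ => ?_⟩
    · rw [map_add]; exact (norm_add_le _ _).trans (add_le_add (hM n) (hM' n))
    · simpa using (hx1 ζ).add (hy1 ζ)
    · simpa using (hx2 ζ).add (hy2 ζ)
  algebraMap_mem' r := ⟨fun _ => algebraMap ℂ B r, fun _ => algebraMap_mem _ _,
    ⟨_, fun _ => le_rfl⟩, fun ζ => by simp [AlgHomClass.commutes],
    fun ζ => by simp only [AlgHomClass.commutes]; exact tendsto_const_nhds⟩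
  star_mem' := by
    rintro X ⟨x, hx, ⟨M, hM⟩, hx1, hx2⟩
    exact ⟨fun n => star (x n), fun n => star_mem (hx n), ⟨M, fun n => by
      simpa [map_star] using hM n⟩, by simpa only [map_star] using hx2,
      by simpa only [map_star, star_star] using hx1⟩

theorem mem_SL {C : StarSubalgebra ℂ B} {x : B} (hx : x ∈ C) : ρ x ∈ SL ρ C :=
  ⟨fun _ => x, fun _ => hx, ⟨_, fun _ => le_rfl⟩, fun _ => tendsto_const_nhds,
    fun _ => tendsto_const_nhds⟩

theorem SL_mono {C D : StarSubalgebra ℂ B} (h : C ≤ D) : SL ρ C ≤ SL ρ D :=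
  fun _ ⟨x, hx, h'⟩ => ⟨x, fun n => h (hx n), h'⟩

/-- closed under strong sequential limits -/
def SC (V : Submodule ℂ (K →L[ℂ] K)) : Prop :=
  ∀ (y : ℕ → K →L[ℂ] K) (Y : K →L[ℂ] K), (∀ n, y n ∈ V) →
    (∀ ζ, Tendsto (fun n => y n ζ) atTop (𝓝 (Y ζ))) → Y ∈ V

omit [CompleteSpace K] in
theorem SC_bot : SC (⊥ : Submodule ℂ (K →L[ℂ] K)) := by
  intro y Y hy h
  rw [Submodule.mem_bot]
  ext ζ
  refine tendsto_nhds_unique (h ζ) ?_
  simp only [Submodule.mem_bot] at hy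
  simp [hy]

omit [CompleteSpace K] in
theorem SC_span (r : K →L[ℂ] K) : SC (ℂ ∙ r) := by
  by_cases hr : r = 0
  · subst hr; rw [Submodule.span_zero_singleton]; exact SC_bot
  intro y Y hy h
  obtain ⟨ζ, hζ⟩ : ∃ ζ, r ζ ≠ 0 := by
    by_contra hc; push Not at hc; exact hr (by ext ζ; exact hc ζ)
  choose c hc using fun n => Submodule.mem_span_singleton.1 (hy n)
  have h1 : Y ζ ∈ (ℂ ∙ r ζ) :=
    (Submodule.closed_of_finiteDimensional (ℂ ∙ r ζ)).mem_of_tendsto (h ζ)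
      (Eventually.of_forall fun n => Submodule.mem_span_singleton.2 ⟨c n, by simp [← hc n]⟩)
  obtain ⟨c₀, hc₀⟩ := Submodule.mem_span_singleton.1 h1
  have h2 : Tendsto c atTop (𝓝 c₀) := by
    have h3 := tendsto_iff_norm_sub_tendsto_zero.1 (h ζ)
    simp only [← hc, ← hc₀, smul_apply, ← sub_smul, norm_smul] at h3
    have h4 := h3.mul_const ‖r ζ‖⁻¹
    simp only [mul_assoc, mul_inv_cancel₀ (norm_ne_zero_iff.2 hζ), mul_one, zero_mul] at h4
    exact tendsto_iff_norm_sub_tendsto_zero.2 h4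
  refine Submodule.mem_span_singleton.2 ⟨c₀, ?_⟩
  ext η
  refine tendsto_nhds_unique ?_ (h η)
  simpa only [← hc, smul_apply] using h2.smul_const (r η)

omit [CompleteSpace K] in
theorem SC.isClosed {V : Submodule ℂ (K →L[ℂ] K)} (hV : SC V) :
    IsClosed (V : Set (K →L[ℂ] K)) := by
  refine isClosed_of_closure_subset fun S hS => ?_
  obtain ⟨T, hT, h⟩ := mem_closure_iff_seq_limit.1 hS
  exact hV T S hT fun x => ((ContinuousLinearMap.apply ℂ K x).continuous.tendsto S).comp h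

/-- `r ρ(C) s ⊆ V` -/
def Rel (r s : K →L[ℂ] K) (C : StarSubalgebra ℂ B) (V : Submodule ℂ (K →L[ℂ] K)) : Prop :=
  ∀ x ∈ C, r * ρ x * s ∈ V

/-- `r` is minimal with respect to `C` -/
abbrev Mini (r : K →L[ℂ] K) (C : StarSubalgebra ℂ B) : Prop := Rel ρ r r C (ℂ ∙ r)

/-- `r` and `s` are disjoint with respect to `C` -/
abbrev Orth (r s : K →L[ℂ] K) (C : StarSubalgebra ℂ B) : Prop := Rel ρ r s C ⊥

variable {ρ}

theorem Rel.mono {r s : K →L[ℂ] K} {C D : StarSubalgebra ℂ B} {V : Submodule ℂ (K →L[ℂ] K)}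
    (h : Rel ρ r s D V) (hCD : C ≤ D) : Rel ρ r s C V := fun x hx => h x (hCD hx)

theorem Rel.sl {r s : K →L[ℂ] K} {C : StarSubalgebra ℂ B} {V : Submodule ℂ (K →L[ℂ] K)}
    (h : Rel ρ r s C V) (hV : SC V) {X : K →L[ℂ] K} (hX : X ∈ SL ρ C) : r * X * s ∈ V := by
  obtain ⟨x, hx, -, hx1, -⟩ := hX
  exact hV (fun n => r * ρ (x n) * s) _ (fun n => h _ (hx n)) fun ζ =>
    (r.continuous.tendsto _).comp (hx1 (s ζ))

theorem Orth.sl {r s : K →L[ℂ] K} {C : StarSubalgebra ℂ B} (h : Orth ρ r s C)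
    {X : K →L[ℂ] K} (hX : X ∈ SL ρ C) : r * X * s = 0 := Rel.sl h SC_bot hX

theorem Mini.sl {r : K →L[ℂ] K} {C : StarSubalgebra ℂ B} (h : Mini ρ r C)
    {X : K →L[ℂ] K} (hX : X ∈ SL ρ C) : ∃ c : ℂ, c • r = r * X * r :=
  Submodule.mem_span_singleton.1 (Rel.sl h (SC_span r) hX)

theorem Orth.symm {r s : K →L[ℂ] K} {C : StarSubalgebra ℂ B} (h : Orth ρ r s C)
    (hr : IsStarProjection r) (hs : IsStarProjection s) : Orth ρ s r C := by
  intro x hx
  have h1 : r * ρ (star x) * s = 0 := h _ (star_mem hx)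
  have h2 := congrArg star h1
  rw [Submodule.mem_bot]
  simpa [hr.isSelfAdjoint.star_eq, hs.isSelfAdjoint.star_eq, map_star, mul_assoc] using h2

theorem orth_trans {r p s : K →L[ℂ] K} {C : StarSubalgebra ℂ B} (hr : r ∈ SL ρ C)
    (hp : p ∈ SL ρ C) (hpp : IsStarProjection p) (hm : Mini ρ p C) (h : Orth ρ r s C) :
    Orth ρ r p C ∨ Orth ρ p s C := by
  by_contra hc
  simp only [Rel, Submodule.mem_bot, not_or, not_forall] at hc
  obtain ⟨⟨x, hx, hx'⟩, y, hy, hy'⟩ := hc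
  obtain ⟨c, hc⟩ := hm.sl (mul_mem (star_mem (mul_mem hr (mem_SL ρ hx))) (mul_mem hr (mem_SL ρ hx)))
  have h1 : star (r * ρ x * p) * (r * ρ x * p) = c • p := by
    rw [hc, star_mul, hpp.isSelfAdjoint.star_eq]; simp only [mul_assoc]
  have hc0 : c ≠ 0 := by
    rintro rfl
    rw [zero_smul, CStarRing.star_mul_self_eq_zero_iff] at h1
    exact hx' h1
  have h2 := h.sl (mul_mem (mul_mem (mem_SL ρ hx) hp) (mem_SL ρ hy))
  have h3 : star (r * ρ x * p) * (r * ρ x * p) * (ρ y * s) = 0 := by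
    rw [mul_assoc]
    have : r * ρ x * p * (ρ y * s) = 0 := by simpa only [mul_assoc] using h2
    rw [this, mul_zero]
  rw [h1, smul_mul_assoc, smul_eq_zero, ← mul_assoc] at h3
  exact h3.elim hc0 hy'

theorem rel_cs {r s : K →L[ℂ] K} {G : Set B} {V : Submodule ℂ (K →L[ℂ] K)} (hV : SC V)
    (h : Rel ρ r s (StarAlgebra.adjoin ℂ G) V) : Rel ρ r s (cs G) V := by
  intro x hx
  have hc : Continuous fun x : B => r * ρ x * s := by
    have := map_continuous ρ
    fun_prop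
  exact (hV.isClosed.preimage hc).closure_subset_iff.2 h hx

theorem rel_of_span {r s : K →L[ℂ] K} {G : Set B} {V : Submodule ℂ (K →L[ℂ] K)} (hV : SC V)
    (E : Set (K →L[ℂ] K)) (h1 : 1 ∈ E)
    (hG : ∀ g ∈ G, ∀ e ∈ E, ρ g * e ∈ Submodule.span ℂ E ∧ ρ (star g) * e ∈ Submodule.span ℂ E)
    (hE : ∀ e ∈ E, r * e * s ∈ V) : Rel ρ r s (cs G) V := by
  refine rel_cs hV fun x hx => ?_
  have k1 : ∀ y : K →L[ℂ] K, (∀ e ∈ E, y * e ∈ Submodule.span ℂ E) →
      ∀ w ∈ Submodule.span ℂ E, y * w ∈ Submodule.span ℂ E := by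
    intro y hy w hw
    induction hw using Submodule.span_induction with
    | mem e he => exact hy e he
    | zero => simp
    | add a b _ _ ha hb => rw [mul_add]; exact add_mem ha hb
    | smul c a _ ha => rw [mul_smul_comm]; exact Submodule.smul_mem _ _ ha
  have k2 : ∀ w ∈ Submodule.span ℂ E,
      ρ x * w ∈ Submodule.span ℂ E ∧ ρ (star x) * w ∈ Submodule.span ℂ E := by
    induction hx using StarAlgebra.adjoin_induction with
    | mem g hg => exact fun w hw => ⟨k1 _ (fun e he => (hG g hg e he).1) w hw,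
        k1 _ (fun e he => (hG g hg e he).2) w hw⟩
    | algebraMap c =>
      intro w hw
      rw [← algebraMap_star_comm, AlgHomClass.commutes, AlgHomClass.commutes,
        ← Algebra.smul_def, ← Algebra.smul_def]
      exact ⟨Submodule.smul_mem _ _ hw, Submodule.smul_mem _ _ hw⟩
    | add a b _ _ ha hb =>
      intro w hw
      rw [star_add, map_add, map_add, add_mul, add_mul]
      exact ⟨add_mem (ha w hw).1 (hb w hw).1, add_mem (ha w hw).2 (hb w hw).2⟩
    | mul a b _ _ ha hb =>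
      intro w hw
      rw [star_mul, map_mul, map_mul, mul_assoc, mul_assoc]
      exact ⟨(ha _ (hb w hw).1).1, (hb _ (ha w hw).2).2⟩
    | star a _ ha => intro w hw; rw [star_star]; exact (ha w hw).symm
  have k3 : ∀ w ∈ Submodule.span ℂ E, r * w * s ∈ V := by
    intro w hw
    induction hw using Submodule.span_induction with
    | mem e he => exact hE e he
    | zero => simp
    | add a b _ _ ha hb => rw [mul_add, add_mul]; exact add_mem ha hb
    | smul c a _ ha => rw [mul_smul_comm, smul_mul_assoc]; exact Submodule.smul_mem _ _ ha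
  simpa using k3 _ (k2 1 (Submodule.subset_span h1)).1

theorem glue_aux {N : StarSubalgebra ℂ (K →L[ℂ] K)} {p p' v : K →L[ℂ] K} (hp' : p' ∈ N)
    (h1 : v * p = v) (h2 : p' * v = v) (h3 : p * star v = star v) (h4 : v * star v = p')
    (hm : ∀ X ∈ N, ∃ c : ℂ, c • p = p * X * p) (ho : ∀ X ∈ N, p * X * p' = 0)
    (E : Set (K →L[ℂ] K))
    (hE : ∀ e, e ∈ E ↔ e ∈ N ∨ ∃ X ∈ N, ∃ Y ∈ N, e = X * v * Y ∨ e = X * star v * Y)
    (e : K →L[ℂ] K) (he : e ∈ E) : v * e ∈ Submodule.span ℂ E := by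
  rcases (hE e).1 he with he | ⟨X, hX, Y, hY, rfl | rfl⟩
  · exact Submodule.subset_span ((hE _).2 (Or.inr ⟨1, one_mem _, e, he, Or.inl (by simp)⟩))
  · have : v * (X * v * Y) = v * (p * X * p') * v * Y := by
      simp only [← mul_assoc, h1]; simp only [mul_assoc]; rw [← mul_assoc p', h2]
    rw [this, ho X hX]; simp
  · obtain ⟨c, hc⟩ := hm X hX
    have : v * (X * star v * Y) = v * (p * X * p) * star v * Y := by
      simp only [← mul_assoc, h1]; simp only [mul_assoc]; rw [← mul_assoc p, h3]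
    rw [this, ← hc, mul_smul_comm, h1, smul_mul_assoc, h4, smul_mul_assoc]
    exact Submodule.smul_mem _ _ (Submodule.subset_span ((hE _).2 (Or.inl (mul_mem hp' hY))))

theorem glue_step {C : StarSubalgebra ℂ B} {p p' r s : K →L[ℂ] K} {u : B}
    {V : Submodule ℂ (K →L[ℂ] K)} (hV : SC V) (hp : p ∈ SL ρ C) (hp' : p' ∈ SL ρ C)
    (pp : IsStarProjection p) (pp' : IsStarProjection p') (hu : u ∈ unitary B)
    (hup : ρ u * p = p' * ρ u) (ha : ρ u * (1 - p) ∈ SL ρ C) (hm : Mini ρ p C) (hm' : Mini ρ p' C)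
    (ho : Orth ρ p p' C) (h1 : Orth ρ r p' C ∨ Orth ρ p s C) (h2 : Orth ρ r p C ∨ Orth ρ p' s C)
    (h : Rel ρ r s C V) : Rel ρ r s (cs (insert u (C : Set B))) V := by
  obtain ⟨v, hv⟩ : ∃ v, v = ρ u * p := ⟨_, rfl⟩
  have u1 : star (ρ u) * ρ u = 1 := by rw [← map_star, ← map_mul, hu.1, map_one]
  have u2 : ρ u * star (ρ u) = 1 := by rw [← map_star, ← map_mul, hu.2, map_one]
  have v1 : v * p = v := by rw [hv, mul_assoc, pp.isIdempotentElem.eq]
  have v2 : p' * v = v := by rw [hv, hup, ← mul_assoc, pp'.isIdempotentElem.eq]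
  have v3 : p * star v = star v := by
    simpa [pp.isSelfAdjoint.star_eq] using congrArg star v1
  have v4 : star v * p' = star v := by
    simpa [pp'.isSelfAdjoint.star_eq] using congrArg star v2
  have v5 : v * star v = p' := by
    rw [hv, hup, star_mul, pp'.isSelfAdjoint.star_eq, mul_assoc, ← mul_assoc (ρ u), u2, one_mul,
      pp'.isIdempotentElem.eq]
  have v6 : star v * v = p := by
    rw [hv, star_mul, pp.isSelfAdjoint.star_eq, mul_assoc, ← mul_assoc (star _), u1, one_mul,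
      pp.isIdempotentElem.eq]
  let E : Set (K →L[ℂ] K) :=
    {e | e ∈ SL ρ C ∨ ∃ X ∈ SL ρ C, ∃ Y ∈ SL ρ C, e = X * v * Y ∨ e = X * star v * Y}
  have k1 : ∀ Z ∈ SL ρ C, ∀ e ∈ E, Z * e ∈ Submodule.span ℂ E := by
    rintro Z hZ e (he | ⟨X, hX, Y, hY, he⟩) <;> apply Submodule.subset_span
    · exact Or.inl (mul_mem hZ he)
    · exact Or.inr ⟨Z * X, mul_mem hZ hX, Y, hY, by
        rcases he with rfl | rfl <;> simp [mul_assoc]⟩
  have k2 := glue_aux hp' v1 v2 v3 v5 (fun X hX => hm.sl hX) (fun X hX => ho.sl hX) E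
    fun _ => Iff.rfl
  have k3 := glue_aux (v := star v) hp v4 v3 (by simpa using v2) (by simpa using v6)
    (fun X hX => hm'.sl hX) (fun X hX => (ho.symm pp pp').sl hX) E
    fun e => by simp only [E, star_star, Set.mem_ofPred_eq, or_comm]
  have hu' : ρ u = ρ u * (1 - p) + v := by rw [hv, mul_sub]; simp
  refine rel_of_span hV E (Or.inl (one_mem _)) ?_ ?_
  · rintro g (rfl | hg) e he
    · constructor
      · rw [hu', add_mul]; exact add_mem (k1 _ ha e he) (k2 e he)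
      · rw [map_star, hu', star_add, add_mul]; exact add_mem (k1 _ (star_mem ha) e he) (k3 e he)
    · exact ⟨k1 _ (mem_SL ρ hg) e he, k1 _ (mem_SL ρ (star_mem hg)) e he⟩
  · rintro e (he | ⟨X, hX, Y, hY, rfl | rfl⟩)
    · exact h.sl hV he
    · have : r * (X * v * Y) * s = (r * X * p') * v * (p * Y * s) := by
        simp only [mul_assoc]; rw [← mul_assoc v p, v1, ← mul_assoc p' v, v2]
      rw [this]
      rcases h1 with h1 | h1
      · rw [h1.sl hX]; simp
      · rw [h1.sl hY]; simp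
    · have : r * (X * star v * Y) * s = (r * X * p) * star v * (p' * Y * s) := by
        simp only [mul_assoc]; rw [← mul_assoc (star v) p', v4, ← mul_assoc p (star v), v3]
      rw [this]
      rcases h2 with h1 | h1
      · rw [h1.sl hX]; simp
      · rw [h1.sl hY]; simp

/-- reduced words beginning and ending with `g` -/
inductive RW (ρ : B →⋆ₐ[ℂ] (K →L[ℂ] K)) (C : StarSubalgebra ℂ B) (Q g : K →L[ℂ] K) :
    (K →L[ℂ] K) → Prop
  | base : RW ρ C Q g g
  | step (x : B) (W : K →L[ℂ] K) : x ∈ C → Q * ρ x * Q = 0 → RW ρ C Q g W →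
      RW ρ C Q g (g * ρ x * W)

theorem free_step {C : StarSubalgebra ℂ B} {Q r s : K →L[ℂ] K} {g : B}
    {V : Submodule ℂ (K →L[ℂ] K)} (hV : SC V) (hQ : IsStarProjection Q) (hg : star g = g)
    (hg2 : g * g = 1) (hQg : (1 - Q) * ρ g * (1 - Q) = 0)
    (hQx : ∀ x ∈ C, ∃ c : ℂ, Q * ρ x * Q = c • Q) (h1 : Orth ρ r Q C) (h2 : Orth ρ Q s C)
    (h : Rel ρ r s C V) : Rel ρ r s (cs (insert g (C : Set B))) V := by
  let E : Set (K →L[ℂ] K) :=
    {e | (∃ x ∈ C, e = ρ x) ∨ ∃ x ∈ C, ∃ y ∈ C, ∃ W, RW ρ C Q (ρ g) W ∧ e = ρ x * W * ρ y}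
  have g2 : ρ g * ρ g = 1 := by rw [← map_mul, hg2, map_one]
  have k0 : ∀ W, RW ρ C Q (ρ g) W → (1 - Q) * W * (1 - Q) = 0 := by
    intro W hW
    induction hW with
    | base => exact hQg
    | step x W hx hx' _ ih =>
      have e1 : (1 - Q) * ρ g = (1 - Q) * ρ g * Q := by
        rw [mul_sub, mul_one, sub_eq_zero] at hQg; exact hQg
      have e2 : W * (1 - Q) = Q * (W * (1 - Q)) := by
        rw [mul_assoc, sub_mul, one_mul, sub_eq_zero] at ih; exact ih
      calc _ = ((1 - Q) * ρ g) * ρ x * (W * (1 - Q)) := by simp only [mul_assoc]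
        _ = ((1 - Q) * ρ g) * (Q * ρ x * Q) * (W * (1 - Q)) := by
          conv_lhs => rw [e1, e2]
          simp only [mul_assoc]
        _ = 0 := by rw [hx']; simp
  have k1 : ∀ z ∈ C, ∀ e ∈ E, ρ z * e ∈ Submodule.span ℂ E := by
    rintro z hz e (⟨x, hx, rfl⟩ | ⟨x, hx, y, hy, W, hW, rfl⟩) <;> apply Submodule.subset_span
    · exact Or.inl ⟨z * x, mul_mem hz hx, by rw [map_mul]⟩
    · exact Or.inr ⟨z * x, mul_mem hz hx, y, hy, W, hW, by simp [mul_assoc]⟩
  have k2 : ∀ e ∈ E, ρ g * e ∈ Submodule.span ℂ E := by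
    rintro e (⟨x, hx, rfl⟩ | ⟨x, hx, y, hy, W, hW, rfl⟩)
    · exact Submodule.subset_span (Or.inr ⟨1, one_mem _, x, hx, _, RW.base, by simp⟩)
    · obtain ⟨c, hc⟩ := hQx x hx
      have hx0 : x - c • 1 ∈ C := sub_mem hx (C.smul_mem (one_mem _) c)
      have e1 : ρ g * (ρ x * W * ρ y) =
          ρ 1 * (ρ g * ρ (x - c • 1) * W) * ρ y + c • (ρ g * W * ρ y) := by
        simp [mul_sub, sub_mul, mul_assoc]
      rw [e1]
      refine add_mem (Submodule.subset_span (Or.inr ⟨1, one_mem _, y, hy, _,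
        RW.step _ W hx0 ?_ hW, rfl⟩)) (Submodule.smul_mem _ _ (Submodule.subset_span ?_))
      · simp [mul_sub, sub_mul, hc, hQ.isIdempotentElem.eq]
      · cases hW with
        | base => exact Or.inl ⟨y, hy, by rw [g2, one_mul]⟩
        | step x' W' hx' _ hW' =>
          exact Or.inr ⟨x', hx', y, hy, W', hW', by simp only [← mul_assoc, g2, one_mul]⟩
  refine rel_of_span hV E (Or.inl ⟨1, one_mem _, by simp⟩) ?_ ?_
  · rintro z (rfl | hz) e he
    · rw [hg]; exact ⟨k2 e he, k2 e he⟩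
    · exact ⟨k1 _ hz e he, k1 _ (star_mem hz) e he⟩
  · rintro e (⟨x, hx, rfl⟩ | ⟨x, hx, y, hy, W, hW, rfl⟩)
    · exact h x hx
    · have e1 : r * ρ x = r * ρ x * (1 - Q) := by
        rw [mul_sub, mul_one, show r * ρ x * Q = 0 from h1 x hx, sub_zero]
      have e2 : ρ y * s = (1 - Q) * (ρ y * s) := by
        rw [sub_mul, one_mul, ← mul_assoc, show Q * ρ y * s = 0 from h2 y hy, sub_zero]
      have : r * (ρ x * W * ρ y) * s = r * ρ x * ((1 - Q) * W * (1 - Q)) * (ρ y * s) := by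
        calc _ = (r * ρ x) * W * (ρ y * s) := by simp only [mul_assoc]
          _ = _ := by conv_lhs => rw [e1, e2]
                      simp only [mul_assoc]
      rw [this, k0 W hW]; simp

end Crest.Agent.R120
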